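import Vale.Agent.P325.H792.Moeb

/-!
# The structure theorem for sets of linear maps with large retention
-/

set_option linter.unusedSectionVars false

namespace Vale.Agent.P325.H792

open Vale.Agent.P325.Star Vale.Agent.P325.H924 Finset Module LinearMap

section conv

variable {V W : Type} [AddCommGroup V] [Module F V] [Finite V] [AddCommGroup W] [Module F W]
  [Finite W]

open Classical in
/-- the indicator function of a set -/
noncomputable def indS (S : Set (V →ₗ[F] W)) (M : V →ₗ[F] W) : ℝ := if M ∈ S then 1 else 0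

lemma indS_or (S : Set (V →ₗ[F] W)) (M : V →ₗ[F] W) : indS S M = 0 ∨ indS S M = 1 := by
  unfold indS; split_ifs <;> simp

lemma indS_sq (S : Set (V →ₗ[F] W)) (M : V →ₗ[F] W) : indS S M ^ 2 = indS S M := by
  rcases indS_or S M with h | h <;> rw [h] <;> norm_num

lemma sum_indS (S : Set (V →ₗ[F] W)) : ∑ M, indS S M = Nat.card S := by
  classical
  unfold indS
  rw [Finset.sum_ite, Finset.sum_const_zero, add_zero, Finset.sum_const, nsmul_eq_mul, mul_one,
    ← Fintype.card_subtype, ← Nat.card_eq_fintype_card]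

lemma av_indS (S : Set (V →ₗ[F] W)) : av (indS S) * nn V W = Nat.card S := by
  unfold av
  rw [div_mul_cancel₀ _ (nn_pos V W).ne', sum_indS]

/-- the number of retained triples on the Fourier side -/
lemma card_ret (S : Set (V →ₗ[F] W)) :
    (Nat.card {p : (V →ₗ[F] W) × W × Dual F V | p.1 ∈ S ∧ p.1 + one p.2.1 p.2.2 ∈ S} : ℝ) =
      nn V W * (Nat.card W * Nat.card (Dual F V)) *
        ∑ X : W →ₗ[F] V, (1 / 2) ^ rk X * co (indS S) X ^ 2 := by
  classical
  have := Fintype.ofFinite W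
  have h1 : (Nat.card {p : (V →ₗ[F] W) × W × Dual F V | p.1 ∈ S ∧ p.1 + one p.2.1 p.2.2 ∈ S} : ℝ) =
      ∑ p : (V →ₗ[F] W) × W × Dual F V, indS S p.1 * indS S (p.1 + one p.2.1 p.2.2) := by
    have h2 : ∀ p : (V →ₗ[F] W) × W × Dual F V, indS S p.1 * indS S (p.1 + one p.2.1 p.2.2) =
        if p.1 ∈ S ∧ p.1 + one p.2.1 p.2.2 ∈ S then 1 else 0 := by
      intro p
      unfold indS
      by_cases h3 : p.1 ∈ S <;> by_cases h4 : p.1 + one p.2.1 p.2.2 ∈ S <;> simp [h3, h4]
    rw [Finset.sum_congr rfl fun p _ => h2 p, Finset.sum_ite, Finset.sum_const_zero, add_zero,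
      Finset.sum_const, nsmul_eq_mul, mul_one, ← Fintype.card_subtype, ← Nat.card_eq_fintype_card]
    rfl
  rw [h1, Fintype.sum_prod_type]
  have h3 : ∀ (w : W) (ψ : Dual F V), ∑ M, indS S M * indS S (M + one w ψ) =
      nn V W * ∑ X, co (indS S) X * (co (indS S) X * chi X (one w ψ)) := by
    intro w ψ
    have h4 := plancherel (indS S) (fun M => indS S (M + one w ψ))
    have h5 : ∀ X, co (fun M => indS S (M + one w ψ)) X = co (indS S) X * chi X (one w ψ) := by
      intro X
      have h6 : mo (fun X => chi X (one w ψ)) (indS S) = fun M => indS S (M + one w ψ) := by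
        funext M
        rw [mo_eq (ν := fun N => if N = one w ψ then 1 else 0)]
        · simp
        · intro X; simp
      rw [← h6, co_mo, mul_comm]
    simp_rw [h5] at h4
    rw [← h4]
    unfold av
    rw [mul_div_cancel₀ _ (nn_pos V W).ne']
  have h7 : ∑ M, ∑ p : W × Dual F V, indS S M * indS S (M + one p.1 p.2) =
      ∑ p : W × Dual F V, nn V W * ∑ X, co (indS S) X * (co (indS S) X * chi X (one p.1 p.2)) := by
    rw [Finset.sum_comm]
    exact Finset.sum_congr rfl fun p _ => h3 p.1 p.2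
  rw [h7, ← Finset.mul_sum, Finset.sum_comm]
  have h8 : ∀ X : W →ₗ[F] V, ∑ p : W × Dual F V, co (indS S) X * (co (indS S) X * chi X (one p.1 p.2)) =
      (Nat.card W * Nat.card (Dual F V)) * ((1 / 2) ^ rk X * co (indS S) X ^ 2) := by
    intro X
    have h9 : ∑ p : W × Dual F V, chi X (one p.1 p.2) =
        (Nat.card W * Nat.card (Dual F V)) * (1 / 2) ^ rk X := by
      rw [Fintype.sum_prod_type]
      simp_rw [chi_one, sum_sgn_dual]
      have h10 := sum_ker X (0 : Dual F W)
      simp only [LinearMap.zero_apply, sgn_zero] at h10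
      rw [if_pos (by rw [LinearMap.ker_zero]; exact le_top)] at h10
      have h11 : ∀ u : W, (if X u = 0 then (2 : ℝ) ^ finrank F V else 0) =
          2 ^ finrank F V * (if X u = 0 then 1 else 0) := by
        intro u; split_ifs <;> simp
      simp_rw [h11]
      rw [← Finset.mul_sum, h10, pow_ker, natCard_pow, natCard_pow, Subspace.dual_finrank_eq]
      ring
    rw [← Finset.mul_sum, ← Finset.mul_sum, h9]
    ring
  rw [Finset.sum_congr rfl fun X _ => h8 X, ← Finset.mul_sum]
  ring

/-- a set which is not global is dense in a zoom -/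
lemma dense_of_not_glob {S : Set (V →ₗ[F] W)} {R : ℕ} {ξ : ℝ} (h : ¬Glob R ξ (indS S)) :
    ∃ (B : Submodule F W) (A : Submodule F V) (M₀ : V →ₗ[F] W),
      finrank F (W ⧸ B) ≤ R ∧ finrank F A ≤ R ∧
      ξ * Nat.card (zoom B A) ≤ Nat.card {M : V →ₗ[F] W | M ∈ zoom B A ∧ M₀ + M ∈ S} := by
  classical
  unfold Glob at h
  push Not at h
  obtain ⟨U, Z, _, _, _, _, _, _, i, q, hi, hq, h1, h2, M₀, h3⟩ := h
  refine ⟨range i, ker q, M₀, h1, h2, ?_⟩
  have hmem : ∀ M : Z →ₗ[F] U, emb i q M ∈ zoom (range i) (ker q) := by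
    intro M
    rw [mem_zoom]
    refine ⟨fun v => ⟨M (q v), rfl⟩, fun a ha => ?_⟩
    have ha' : q a = 0 := ha
    show i (M (q a)) = 0
    rw [ha', map_zero, map_zero]
  have hinj : Function.Injective (emb i q) := by
    intro M M' hM
    ext z
    obtain ⟨v, rfl⟩ := hq z
    exact hi (LinearMap.congr_fun hM v)
  have hsurj : ∀ M ∈ zoom (range i) (ker q), ∃ M', emb i q M' = M := by
    intro M hM
    rw [mem_zoom] at hM
    obtain ⟨p, hp⟩ := LinearMap.exists_leftInverse_of_injective i (LinearMap.ker_eq_bot.2 hi)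
    obtain ⟨s, hs⟩ := LinearMap.exists_rightInverse_of_surjective q (LinearMap.range_eq_top.2 hq)
    refine ⟨p ∘ₗ M ∘ₗ s, ?_⟩
    ext v
    show i (p (M (s (q v)))) = M v
    have e1 : M (s (q v)) = M v := by
      have e2 : s (q v) - v ∈ ker q := by
        rw [LinearMap.mem_ker, map_sub]
        have := LinearMap.congr_fun hs (q v)
        simp only [LinearMap.comp_apply, LinearMap.id_apply] at this
        rw [this, sub_self]
      have e3 := hM.2 _ e2
      rwa [map_sub, sub_eq_zero] at e3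
    rw [e1]
    obtain ⟨u, hu⟩ := hM.1 v
    rw [← hu]
    congr 1
    exact LinearMap.congr_fun hp u
  have hc1 : (Nat.card (zoom (range i) (ker q)) : ℝ) ≤ nn Z U := by
    unfold nn
    have : Nat.card (zoom (range i) (ker q)) ≤ Nat.card (Z →ₗ[F] U) := by
      refine Nat.card_le_card_of_surjective
        (fun M : Z →ₗ[F] U => (⟨emb i q M, hmem M⟩ : zoom (range i) (ker q))) ?_
      rintro ⟨M, hM⟩
      obtain ⟨M', hM'⟩ := hsurj M hM
      exact ⟨M', Subtype.ext hM'⟩
    exact_mod_cast this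
  have hc2 : ∑ M : Z →ₗ[F] U, res i q (indS S) M₀ M ^ 2 ≤
      Nat.card {M : V →ₗ[F] W | M ∈ zoom (range i) (ker q) ∧ M₀ + M ∈ S} := by
    have e1 : ∀ M : Z →ₗ[F] U, res i q (indS S) M₀ M ^ 2 =
        indS {M : Z →ₗ[F] U | M₀ + emb i q M ∈ S} M := by
      intro M
      unfold res
      rw [indS_sq]
      rfl
    rw [Finset.sum_congr rfl fun M _ => e1 M, sum_indS]
    have : Nat.card {M : Z →ₗ[F] U | M₀ + emb i q M ∈ S} ≤
        Nat.card {M : V →ₗ[F] W | M ∈ zoom (range i) (ker q) ∧ M₀ + M ∈ S} := by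
      refine Nat.card_le_card_of_injective
        (fun M : {M : Z →ₗ[F] U | M₀ + emb i q M ∈ S} => (⟨emb i q M.1, hmem M.1, M.2⟩ :
          {M : V →ₗ[F] W | M ∈ zoom (range i) (ker q) ∧ M₀ + M ∈ S})) ?_
      intro M M' hM
      exact Subtype.ext (hinj (congrArg Subtype.val hM))
    exact_mod_cast this
  have hξ : 0 ≤ ξ ∨ ξ < 0 := le_or_gt 0 ξ
  rcases hξ with hξ | hξ
  · unfold av at h3
    rw [lt_div_iff₀ (nn_pos Z U)] at h3
    exact (mul_le_mul_of_nonneg_left hc1 hξ).trans (h3.le.trans hc2)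
  · refine le_trans ?_ (Nat.cast_nonneg _)
    exact mul_nonpos_of_nonpos_of_nonneg hξ.le (Nat.cast_nonneg _)

end conv

/-- **The structure theorem.** -/
theorem expansion : Expansion := by
  classical
  intro η hη
  obtain ⟨r, hr⟩ : ∃ r : ℕ, (1 / 2 : ℝ) ^ r < η / 4 :=
    exists_pow_lt_of_lt_one (by positivity) (by norm_num)
  choose R K hK hyp using fun d => hyper moebius d
  set τ : ℝ := η / (4 * (r + 1)) with hτ
  have hτ0 : 0 < τ := by positivity
  set C : ℕ → ℝ := fun ρ => K (ρ + 1) * polC ρ (ρ + 2 * R (ρ + 1)) ^ 2 with hC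
  have hC0 : ∀ ρ, 0 ≤ C ρ := fun ρ => mul_nonneg (hK _) (sq_nonneg _)
  set D : ℝ := 1 + ∑ ρ ∈ Finset.range r, C ρ with hD
  have hD0 : 0 < D := by
    have := Finset.sum_nonneg (s := Finset.range r) fun ρ _ => hC0 ρ
    linarith
  refine ⟨∑ ρ ∈ Finset.range r, R (ρ + 1), τ ^ 3 / D, by positivity, ?_⟩
  intro V W _ _ _ _ _ _ S hS hret
  refine dense_of_not_glob fun hG => ?_
  have hlev : ∀ ρ < r, av (fun M => hpart ρ (indS S) M ^ 2) ≤ τ * av (indS S) := by
    intro ρ hρ
    refine level (hyp (ρ + 1)) (indS_or S) (hG.mono ?_ le_rfl) hτ0.le ?_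
    · exact Finset.single_le_sum (f := fun ρ => R (ρ + 1)) (fun _ _ => Nat.zero_le _)
        (Finset.mem_range.2 hρ)
    · rw [← mul_assoc, mul_div_assoc', div_le_iff₀ hD0, mul_comm (τ ^ 3)]
      refine mul_le_mul_of_nonneg_right ?_ (by positivity)
      have := Finset.single_le_sum (f := C) (fun ρ _ => hC0 ρ) (Finset.mem_range.2 hρ)
      simp only [hC] at this
      linarith
  have h1 := retention r (indS_or S) hlev
  have hnn := nn_pos V W
  have hWV : (0 : ℝ) < Nat.card W * Nat.card (Dual F V) := by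
    have h2 : 0 < Nat.card W := Nat.card_pos
    have h3 : 0 < Nat.card (Dual F V) := Nat.card_pos
    positivity
  rw [card_ret, ← av_indS] at hret
  have hμ : 0 < av (indS S) := by
    have h4 : (0 : ℝ) < Nat.card S := by
      have : Nonempty S := hS.to_subtype
      exact_mod_cast Nat.card_pos
    rw [← av_indS] at h4
    exact pos_of_mul_pos_left h4 hnn.le
  have h5 : η * av (indS S) ≤ ∑ X : W →ₗ[F] V, (1 / 2) ^ rk X * co (indS S) X ^ 2 := by
    have h6 : 0 < nn V W * (Nat.card W * Nat.card (Dual F V)) := mul_pos hnn hWV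
    refine le_of_mul_le_mul_left ?_ h6
    calc _ = η * (av (indS S) * nn V W) * (Nat.card W * Nat.card (Dual F V)) := by ring
      _ ≤ _ := hret
  have h7 : (r : ℝ) * τ ≤ η / 4 := by
    rw [hτ, mul_div_assoc', div_le_div_iff₀ (by positivity) (by norm_num)]
    nlinarith
  have h8 : ((r : ℝ) * τ + (1 / 2) ^ r) * av (indS S) < η * av (indS S) := by
    refine mul_lt_mul_of_pos_right ?_ hμ
    linarith
  linarith

end Vale.Agent.P325.H792
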