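import Vale.Agent.P325.H792.Hom

/-!
# The fourth moment inequality
-/

set_option linter.unusedSectionVars false

namespace Vale.Agent.P325.H792

open Vale.Agent.P325.Star Vale.Agent.P325.H924 Finset Module LinearMap

variable {V W : Type} [AddCommGroup V] [Module F V] [Finite V] [AddCommGroup W] [Module F W]
  [Finite W]

/-- the pair `(X, X + Z)` is generic -/
def Gen (X Z : W →ₗ[F] V) : Prop :=
  range X ⊓ range (X + Z) ⊓ range Z = ⊥ ∧ ker X ⊔ ker (X + Z) ⊔ ker Z = ⊤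

/-- rank additive splitting -/
def RA (X₁ X : W →ₗ[F] V) : Prop := rk X₁ + rk (X - X₁) = rk X

open Classical in
lemma sum_RA_le (X : W →ₗ[F] V) : ∑ X₁ : W →ₗ[F] V, (if RA X₁ X then (1 : ℝ) else 0) ≤
    2 ^ (rk X ^ 2) := by
  rw [Finset.sum_ite, Finset.sum_const_zero, add_zero, Finset.sum_const, nsmul_eq_mul, mul_one]
  have h := card_split X
  have h1 : Nat.card {X₁ : W →ₗ[F] V // rk X₁ + rk (X - X₁) = rk X} =
      (univ.filter fun X₁ : W →ₗ[F] V => RA X₁ X).card := by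
    rw [Nat.card_eq_fintype_card, Fintype.card_subtype]
    refine congrArg Finset.card (Finset.ext fun x => ?_)
    rw [Finset.mem_filter, Finset.mem_filter]
    exact Iff.rfl
  rw [h1] at h
  exact_mod_cast h

/-- the splitting of a generic pair -/
lemma exists_split {X Z : W →ₗ[F] V} (h : Gen X Z) :
    ∃ X₁ : W →ₗ[F] V, RA X₁ Z ∧ RA (X + X₁) X ∧ RA (X + X₁) (X + Z) := by
  have h0 : X + (X + Z) + Z = 0 := by
    have : X + (X + Z) + Z = (X + X) + (Z + Z) := by abel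
    rw [this, add_self_hom, add_self_hom, add_zero]
  obtain ⟨X₁, h1, h2, h3⟩ := split_two X (X + Z) Z h0 h.1 h.2
  refine ⟨X₁, h1, ?_, ?_⟩
  · unfold RA
    have e1 : X - (X + X₁) = X₁ := by
      rw [sub_eq_add_hom, ← add_assoc, add_self_hom, zero_add]
    rw [e1, ← sub_eq_add_hom]
    exact h2
  · unfold RA
    have e1 : X + Z - (X + X₁) = Z - X₁ := by
      rw [sub_eq_add_hom, sub_eq_add_hom]
      have : X + Z + (X + X₁) = (X + X) + (Z + X₁) := by abel
      rw [this, add_self_hom, zero_add]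
    rw [e1, ← sub_eq_add_hom X X₁]
    exact h3

open Classical in
/-- the contribution of the generic pairs -/
lemma generic_bound {d : ℕ} (a : (W →ₗ[F] V) → ℝ) (ha : ∀ X, d ≤ rk X → a X = 0) :
    ∑ Z : W →ₗ[F] V, (∑ X, if Gen X Z then a X * a (X + Z) else 0) ^ 2 ≤
      (2 : ℝ) ^ ((2 * d) ^ 2) * ((2 : ℝ) ^ (d ^ 2)) ^ 2 * (∑ X, a X ^ 2) ^ 2 := by
  -- `u X₁ = ∑ W₀, [RA W₀ (W₀ + X₁)] a (W₀ + X₁) ^ 2`
  set b : (W →ₗ[F] V) → (W →ₗ[F] V) → ℝ := fun W₀ X₁ =>
    if RA W₀ (W₀ + X₁) then |a (W₀ + X₁)| else 0 with hb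
  set u : (W →ₗ[F] V) → ℝ := fun X₁ => ∑ W₀, b W₀ X₁ ^ 2 with hu
  have hu0 : ∀ X₁, 0 ≤ u X₁ := fun X₁ => Finset.sum_nonneg fun _ _ => sq_nonneg _
  have hb0 : ∀ W₀ X₁, 0 ≤ b W₀ X₁ := by
    intro W₀ X₁; simp only [hb]; split_ifs; exacts [abs_nonneg _, le_rfl]
  -- total mass of `u`
  have hsum : ∑ X₁, u X₁ ≤ 2 ^ (d ^ 2) * ∑ X, a X ^ 2 := by
    have h1 : ∑ X₁, u X₁ = ∑ W₀, ∑ X₁, b W₀ X₁ ^ 2 := Finset.sum_comm
    have h2 : ∀ W₀ : W →ₗ[F] V, ∑ X₁, b W₀ X₁ ^ 2 = ∑ X, if RA W₀ X then a X ^ 2 else 0 := by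
      intro W₀
      have h3 := sum_translate (fun X : W →ₗ[F] V => if RA W₀ X then a X ^ 2 else 0) W₀
      rw [← h3]
      refine Finset.sum_congr rfl fun X _ => ?_
      simp only [hb]
      rw [add_comm W₀ X]
      split_ifs
      · exact sq_abs _
      · simp
    rw [h1, Finset.sum_congr rfl fun W₀ _ => h2 W₀, Finset.sum_comm, Finset.mul_sum]
    refine Finset.sum_le_sum fun X _ => ?_
    have h3 : ∑ W₀ : W →ₗ[F] V, (if RA W₀ X then a X ^ 2 else 0) =
        (∑ W₀ : W →ₗ[F] V, if RA W₀ X then (1 : ℝ) else 0) * a X ^ 2 := by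
      rw [Finset.sum_mul]
      refine Finset.sum_congr rfl fun W₀ _ => ?_
      split_ifs <;> simp
    rw [h3]
    by_cases hX : d ≤ rk X
    · rw [ha X hX]; simp
    · refine mul_le_mul_of_nonneg_right ((sum_RA_le X).trans ?_) (sq_nonneg _)
      exact pow_le_pow_right₀ (by norm_num) (Nat.pow_le_pow_left (by omega) 2)
  have key : ∀ Z : W →ₗ[F] V, (∑ X, if Gen X Z then a X * a (X + Z) else 0) ^ 2 ≤
      2 ^ ((2 * d) ^ 2) * ∑ X₁, u X₁ * u (X₁ + Z) := by
    intro Z
    by_cases hZ : 2 * d ≤ rk Z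
    · have h0 : ∑ X, (if Gen X Z then a X * a (X + Z) else 0) = 0 := by
        refine Finset.sum_eq_zero fun X _ => ?_
        split_ifs
        · by_cases hX : d ≤ rk X
          · rw [ha X hX, zero_mul]
          · have h1 : rk Z ≤ rk X + rk (X + Z) := by
              have h2 := rk_add_le X (X + Z)
              rwa [← add_assoc, add_self_hom, zero_add] at h2
            rw [ha (X + Z) (by omega), mul_zero]
        · rfl
      rw [h0]
      simp only [ne_eq, OfNat.ofNat_ne_zero, not_false_eq_true, zero_pow]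
      exact mul_nonneg (by positivity)
        (Finset.sum_nonneg fun _ _ => mul_nonneg (hu0 _) (hu0 _))
    · -- bound by the double sum
      have h1 : |∑ X, (if Gen X Z then a X * a (X + Z) else 0)| ≤
          ∑ X₁, (if RA X₁ Z then 1 else 0) * ∑ W₀, b W₀ X₁ * b W₀ (X₁ + Z) := by
        calc |∑ X, (if Gen X Z then a X * a (X + Z) else 0)|
            ≤ ∑ X, |if Gen X Z then a X * a (X + Z) else 0| := Finset.abs_sum_le_sum_abs _ _
          _ ≤ ∑ X, ∑ X₁, (if RA X₁ Z then 1 else 0) * (b (X + X₁) X₁ * b (X + X₁) (X₁ + Z)) := by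
              refine Finset.sum_le_sum fun X _ => ?_
              have hnn : ∀ X₁ : W →ₗ[F] V, 0 ≤ (if RA X₁ Z then (1:ℝ) else 0) *
                  (b (X + X₁) X₁ * b (X + X₁) (X₁ + Z)) := by
                intro X₁
                refine mul_nonneg ?_ (mul_nonneg (hb0 _ _) (hb0 _ _))
                split_ifs <;> norm_num
              split_ifs with hg
              · obtain ⟨X₁, e1, e2, e3⟩ := exists_split hg
                refine le_trans (le_of_eq ?_) (Finset.single_le_sum (f := fun X₁ =>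
                  (if RA X₁ Z then (1:ℝ) else 0) * (b (X + X₁) X₁ * b (X + X₁) (X₁ + Z)))
                  (fun X₁ _ => hnn X₁) (Finset.mem_univ X₁))
                have f1 : X + X₁ + X₁ = X := by rw [add_assoc, add_self_hom, add_zero]
                have f2 : X + X₁ + (X₁ + Z) = X + Z := by rw [← add_assoc, f1]
                simp only [hb]
                rw [f1, f2, if_pos e1, if_pos e2, if_pos e3, one_mul, abs_mul]
              · rw [abs_zero]
                exact Finset.sum_nonneg fun X₁ _ => hnn X₁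
          _ = ∑ X₁, (if RA X₁ Z then 1 else 0) * ∑ W₀, b W₀ X₁ * b W₀ (X₁ + Z) := by
              rw [Finset.sum_comm]
              refine Finset.sum_congr rfl fun X₁ _ => ?_
              rw [← Finset.mul_sum]
              congr 1
              exact sum_translate (fun W₀ => b W₀ X₁ * b W₀ (X₁ + Z)) X₁
      have h2 : (∑ X₁, (if RA X₁ Z then 1 else 0) * ∑ W₀, b W₀ X₁ * b W₀ (X₁ + Z)) ^ 2 ≤
          (∑ X₁ : W →ₗ[F] V, (if RA X₁ Z then (1:ℝ) else 0) ^ 2) *
            ∑ X₁, (∑ W₀, b W₀ X₁ * b W₀ (X₁ + Z)) ^ 2 :=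
        Finset.sum_mul_sq_le_sq_mul_sq univ _ _
      have h3 : ∑ X₁ : W →ₗ[F] V, (if RA X₁ Z then (1:ℝ) else 0) ^ 2 ≤ 2 ^ ((2 * d) ^ 2) := by
        have : ∀ X₁ : W →ₗ[F] V, (if RA X₁ Z then (1:ℝ) else 0) ^ 2 = if RA X₁ Z then 1 else 0 := by
          intro X₁; split_ifs <;> norm_num
        simp_rw [this]
        exact (sum_RA_le Z).trans
          (pow_le_pow_right₀ (by norm_num) (Nat.pow_le_pow_left (by omega) 2))
      have h4 : ∀ X₁, (∑ W₀, b W₀ X₁ * b W₀ (X₁ + Z)) ^ 2 ≤ u X₁ * u (X₁ + Z) := fun X₁ =>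
        Finset.sum_mul_sq_le_sq_mul_sq univ _ _
      calc (∑ X, (if Gen X Z then a X * a (X + Z) else 0)) ^ 2
          = |∑ X, (if Gen X Z then a X * a (X + Z) else 0)| ^ 2 := (sq_abs _).symm
        _ ≤ (∑ X₁, (if RA X₁ Z then 1 else 0) * ∑ W₀, b W₀ X₁ * b W₀ (X₁ + Z)) ^ 2 :=
            pow_le_pow_left₀ (abs_nonneg _) h1 2
        _ ≤ _ := h2
        _ ≤ 2 ^ ((2 * d) ^ 2) * ∑ X₁, u X₁ * u (X₁ + Z) :=
            mul_le_mul h3 (Finset.sum_le_sum fun X₁ _ => h4 X₁)
              (Finset.sum_nonneg fun _ _ => sq_nonneg _) (by positivity)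
  calc ∑ Z : W →ₗ[F] V, (∑ X, if Gen X Z then a X * a (X + Z) else 0) ^ 2
      ≤ ∑ Z, 2 ^ ((2 * d) ^ 2) * ∑ X₁, u X₁ * u (X₁ + Z) := Finset.sum_le_sum fun Z _ => key Z
    _ = 2 ^ ((2 * d) ^ 2) * ((∑ X₁, u X₁) * ∑ Z, u Z) := by
        rw [← Finset.mul_sum, Finset.sum_comm, Finset.sum_mul]
        congr 1
        refine Finset.sum_congr rfl fun X₁ _ => ?_
        rw [← Finset.mul_sum]
        congr 1
        have := sum_translate u X₁
        rw [← this]
        exact Finset.sum_congr rfl fun Z _ => by rw [add_comm]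
    _ ≤ 2 ^ ((2 * d) ^ 2) * ((2 ^ (d ^ 2) * ∑ X, a X ^ 2) * (2 ^ (d ^ 2) * ∑ X, a X ^ 2)) := by
        refine mul_le_mul_of_nonneg_left ?_ (by positivity)
        exact mul_le_mul hsum hsum (Finset.sum_nonneg fun _ _ => hu0 _)
          (mul_nonneg (by positivity) (Finset.sum_nonneg fun _ _ => sq_nonneg _))
    _ = _ := by ring

/-! ## Inclusion and exclusion over the pairs `(B, A)` -/

instance instFiniteSub {V : Type} [AddCommGroup V] [Module F V] [Finite V] :
    Finite (Submodule F V) := Finite.of_injective (fun S : Submodule F V => (S : Set V))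
      SetLike.coe_injective

noncomputable instance instFintypeSub {V : Type} [AddCommGroup V] [Module F V] [Finite V] :
    Fintype (Submodule F V) := Fintype.ofFinite _

open Classical in
/-- coefficients for the inclusion and exclusion over the subspaces of `W` -/
structure MoebW (Φ : ℕ → ℝ) (c : Submodule F W → ℝ) : Prop where
  top : c ⊤ = 1
  sum : ∀ E, ∑ B, (if E ≤ B then c B else 0) = if E = ⊤ then 1 else 0
  bd : ∀ B, |c B| ≤ Φ (finrank F (W ⧸ B))

open Classical in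
/-- coefficients for the inclusion and exclusion over the subspaces of `V` -/
structure MoebV (Φ : ℕ → ℝ) (c : Submodule F V → ℝ) : Prop where
  bot : c ⊥ = 1
  sum : ∀ D, ∑ A, (if A ≤ D then c A else 0) = if D = ⊥ then 1 else 0
  bd : ∀ A, |c A| ≤ Φ (finrank F A)

lemma ite_and_mul (P Q : Prop) [Decidable P] [Decidable Q] [Decidable (P ∧ Q)] :
    (if P ∧ Q then (1 : ℝ) else 0) = (if P then 1 else 0) * (if Q then 1 else 0) := by
  by_cases hP : P <;> by_cases hQ : Q <;> simp [hP, hQ]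

open Classical in
lemma ind_mul_three (B : Submodule F W) (A : Submodule F V) (X Z : W →ₗ[F] V) :
    (if ker X ⊔ ker (X + Z) ⊔ ker Z ≤ B then (1 : ℝ) else 0) *
      (if A ≤ range X ⊓ range (X + Z) ⊓ range Z then 1 else 0) =
      ind B A X * ind B A (X + Z) * ind B A Z := by
  unfold ind
  simp only [sup_le_iff, le_inf_iff, ite_and_mul]
  ring

open Classical in
lemma gen_eq {Φ : ℕ → ℝ} {c : Submodule F W → ℝ} {c' : Submodule F V → ℝ} (hc : MoebW Φ c)
    (hc' : MoebV Φ c') (X Z : W →ₗ[F] V) : (if Gen X Z then (1 : ℝ) else 0) =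
      ∑ p : Submodule F W × Submodule F V,
        c p.1 * c' p.2 * (ind p.1 p.2 X * ind p.1 p.2 (X + Z) * ind p.1 p.2 Z) := by
  have h1 := hc.sum (ker X ⊔ ker (X + Z) ⊔ ker Z)
  have h2 := hc'.sum (range X ⊓ range (X + Z) ⊓ range Z)
  have h3 : (if Gen X Z then (1 : ℝ) else 0) =
      (if ker X ⊔ ker (X + Z) ⊔ ker Z = ⊤ then 1 else 0) *
        (if range X ⊓ range (X + Z) ⊓ range Z = ⊥ then 1 else 0) := by
    unfold Gen
    by_cases h4 : ker X ⊔ ker (X + Z) ⊔ ker Z = ⊤ <;>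
      by_cases h5 : range X ⊓ range (X + Z) ⊓ range Z = ⊥ <;> simp [h4, h5]
  rw [h3, ← h1, ← h2, Finset.sum_mul_sum, Fintype.sum_prod_type]
  refine Finset.sum_congr rfl fun B _ => Finset.sum_congr rfl fun A _ => ?_
  rw [← ind_mul_three]
  by_cases h4 : ker X ⊔ ker (X + Z) ⊔ ker Z ≤ B <;>
    by_cases h5 : A ≤ range X ⊓ range (X + Z) ⊓ range Z <;> simp [h4, h5]

/-- the square of `f_{B,A}` on the Fourier side -/
lemma co_pr_sq (B : Submodule F W) (A : Submodule F V) (f : (V →ₗ[F] W) → ℝ) (Z : W →ₗ[F] V) :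
    co (fun M => pr B A f M ^ 2) Z =
      ∑ X, (ind B A X * co f X) * (ind B A (X + Z) * co f (X + Z)) := by
  simp_rw [pow_two]
  rw [co_mul]
  simp_rw [co_pr]

lemma pr_top_bot (f : (V →ₗ[F] W) → ℝ) : pr ⊤ ⊥ f = f := by
  refine co_inj fun X => ?_
  rw [co_pr, ind_top_bot, one_mul]

open Classical in
lemma co_sq_eq {Φ : ℕ → ℝ} {c : Submodule F W → ℝ} {c' : Submodule F V → ℝ} (hc : MoebW Φ c)
    (hc' : MoebV Φ c') (f : (V →ₗ[F] W) → ℝ) (Z : W →ₗ[F] V) :
    co (fun M => f M ^ 2) Z = (∑ X, if Gen X Z then co f X * co f (X + Z) else 0) -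
      ∑ p ∈ (univ : Finset (Submodule F W × Submodule F V)).erase (⊤, ⊥),
        ind p.1 p.2 Z * (c p.1 * c' p.2 * ind p.1 p.2 Z * co (fun M => pr p.1 p.2 f M ^ 2) Z) := by
  have h1 : (∑ X, if Gen X Z then co f X * co f (X + Z) else 0) =
      ∑ p : Submodule F W × Submodule F V,
        ind p.1 p.2 Z * (c p.1 * c' p.2 * ind p.1 p.2 Z * co (fun M => pr p.1 p.2 f M ^ 2) Z) := by
    have h2 : ∀ X : W →ₗ[F] V, (if Gen X Z then co f X * co f (X + Z) else 0) =
        ∑ p : Submodule F W × Submodule F V, c p.1 * c' p.2 *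
          (ind p.1 p.2 X * ind p.1 p.2 (X + Z) * ind p.1 p.2 Z) * (co f X * co f (X + Z)) := by
      intro X
      rw [← Finset.sum_mul, ← gen_eq hc hc' X Z]
      split_ifs <;> simp
    rw [Finset.sum_congr rfl fun X _ => h2 X, Finset.sum_comm]
    refine Finset.sum_congr rfl fun p _ => ?_
    rw [co_pr_sq]
    have h3 : ind p.1 p.2 Z * (c p.1 * c' p.2 * ind p.1 p.2 Z *
        ∑ X, (ind p.1 p.2 X * co f X) * (ind p.1 p.2 (X + Z) * co f (X + Z))) =
        c p.1 * c' p.2 * (ind p.1 p.2 Z ^ 2) *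
        ∑ X, (ind p.1 p.2 X * co f X) * (ind p.1 p.2 (X + Z) * co f (X + Z)) := by ring
    rw [h3, ind_sq, Finset.mul_sum]
    exact Finset.sum_congr rfl fun X _ => by ring
  rw [h1, ← Finset.add_sum_erase univ _ (Finset.mem_univ ((⊤ : Submodule F W), (⊥ : Submodule F V)))]
  simp only [ind_top_bot, hc.top, hc'.bot, pr_top_bot]
  ring

open Classical in
lemma sum_ind_le (Z : W →ₗ[F] V) : ∑ p : Submodule F W × Submodule F V, ind p.1 p.2 Z ≤
    ((2 : ℝ) ^ 2 ^ rk Z) ^ 2 := by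
  have h1 : ∀ p : Submodule F W × Submodule F V, ind p.1 p.2 Z =
      if ker Z ≤ p.1 ∧ p.2 ≤ range Z then 1 else 0 := by
    intro p; unfold ind; split_ifs <;> rfl
  rw [Finset.sum_congr rfl fun p _ => h1 p, Finset.sum_ite, Finset.sum_const_zero, add_zero,
    Finset.sum_const, nsmul_eq_mul, mul_one]
  have h := card_pairs Z
  rw [Nat.card_eq_fintype_card, Fintype.card_subtype] at h
  exact_mod_cast h

/-- the constants of the fourth moment inequality -/
noncomputable def K1 (d : ℕ) : ℝ := 2 * ((2 : ℝ) ^ ((2 * d) ^ 2) * ((2 : ℝ) ^ (d ^ 2)) ^ 2)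

noncomputable def K2 (Φ : ℕ → ℝ) (d : ℕ) : ℝ :=
  2 * (((2 : ℝ) ^ 2 ^ (2 * d)) ^ 2 * ((∑ k ∈ Finset.range (2 * d), Φ k) ^ 2) ^ 2)

open Classical in
/-- **The fourth moment inequality.** -/
theorem fourth {Φ : ℕ → ℝ} (hΦ : ∀ k, 0 ≤ Φ k) {c : Submodule F W → ℝ} {c' : Submodule F V → ℝ}
    (hc : MoebW Φ c) (hc' : MoebV Φ c') {d : ℕ} {f : (V →ₗ[F] W) → ℝ} (hf : Deg d f) :
    av (fun M => f M ^ 4) ≤ K1 d * av (fun M => f M ^ 2) ^ 2 + K2 Φ d *
      ∑ p ∈ (univ : Finset (Submodule F W × Submodule F V)).erase (⊤, ⊥),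
        av (fun M => pr p.1 p.2 f M ^ 4) := by
  have hfour : ∀ g : (V →ₗ[F] W) → ℝ, av (fun M => g M ^ 4) =
      ∑ Z, co (fun M => g M ^ 2) Z ^ 2 := by
    intro g
    rw [← parseval]
    congr 1; funext M; ring
  set N : ℝ := ((2 : ℝ) ^ 2 ^ (2 * d)) ^ 2 with hN
  set Q : ℝ := (∑ k ∈ Finset.range (2 * d), Φ k) with hQ
  set s := (univ : Finset (Submodule F W × Submodule F V)).erase (⊤, ⊥) with hs
  have hQ0 : 0 ≤ Q := Finset.sum_nonneg fun k _ => hΦ k
  have key : ∀ Z : W →ₗ[F] V,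
      (∑ p ∈ s, ind p.1 p.2 Z * (c p.1 * c' p.2 * ind p.1 p.2 Z *
        co (fun M => pr p.1 p.2 f M ^ 2) Z)) ^ 2 ≤
      N * (Q ^ 2) ^ 2 * ∑ p ∈ s, co (fun M => pr p.1 p.2 f M ^ 2) Z ^ 2 := by
    intro Z
    by_cases hZ : 2 * d ≤ rk Z
    · have h0 : ∀ p : Submodule F W × Submodule F V, co (fun M => pr p.1 p.2 f M ^ 2) Z = 0 := by
        intro p
        rw [co_pr_sq]
        refine Finset.sum_eq_zero fun X _ => ?_
        by_cases hX : d ≤ rk X
        · rw [hf X hX]; ring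
        · have h1 : rk Z ≤ rk X + rk (X + Z) := by
            have h2 := rk_add_le X (X + Z)
            rwa [← add_assoc, add_self_hom, zero_add] at h2
          rw [hf (X + Z) (by omega)]; ring
      simp [h0]
    · push Not at hZ
      have h1 := Finset.sum_mul_sq_le_sq_mul_sq s (fun p => ind p.1 p.2 Z)
        (fun p => c p.1 * c' p.2 * ind p.1 p.2 Z * co (fun M => pr p.1 p.2 f M ^ 2) Z)
      refine h1.trans ?_
      have h2 : ∑ p ∈ s, ind p.1 p.2 Z ^ 2 ≤ N := by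
        calc ∑ p ∈ s, ind p.1 p.2 Z ^ 2 = ∑ p ∈ s, ind p.1 p.2 Z :=
              Finset.sum_congr rfl fun p _ => ind_sq _ _ _
          _ ≤ ∑ p : Submodule F W × Submodule F V, ind p.1 p.2 Z := by
              refine Finset.sum_le_sum_of_subset_of_nonneg (Finset.erase_subset _ _) fun p _ _ => ?_
              rw [← ind_sq]; exact sq_nonneg _
          _ ≤ ((2 : ℝ) ^ 2 ^ rk Z) ^ 2 := sum_ind_le Z
          _ ≤ N := by
              refine pow_le_pow_left₀ (by positivity) ?_ 2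
              exact pow_le_pow_right₀ (by norm_num) (pow_le_pow_right₀ (by norm_num) hZ.le)
      have h3 : ∀ p ∈ s, (c p.1 * c' p.2 * ind p.1 p.2 Z *
          co (fun M => pr p.1 p.2 f M ^ 2) Z) ^ 2 ≤
          (Q ^ 2) ^ 2 * co (fun M => pr p.1 p.2 f M ^ 2) Z ^ 2 := by
        intro p _
        rw [mul_pow]
        refine mul_le_mul_of_nonneg_right ?_ (sq_nonneg _)
        by_cases hp : ker Z ≤ p.1 ∧ p.2 ≤ range Z
        · have h4 : ind p.1 p.2 Z = 1 := by unfold ind; rw [if_pos hp]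
          rw [h4, mul_one]
          have e1 : finrank F (W ⧸ p.1) < 2 * d := by
            have f1 := Submodule.finrank_quotient_add_finrank p.1
            have f2 : finrank F (ker Z) ≤ finrank F p.1 := Submodule.finrank_mono hp.1
            have f3 : rk Z + finrank F (ker Z) = finrank F W :=
              LinearMap.finrank_range_add_finrank_ker Z
            omega
          have e2 : finrank F p.2 < 2 * d :=
            lt_of_le_of_lt (Submodule.finrank_mono hp.2) hZ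
          have e3 : |c p.1| ≤ Q := (hc.bd p.1).trans
            (Finset.single_le_sum (f := Φ) (fun k _ => hΦ k) (Finset.mem_range.2 e1))
          have e4 : |c' p.2| ≤ Q := (hc'.bd p.2).trans
            (Finset.single_le_sum (f := Φ) (fun k _ => hΦ k) (Finset.mem_range.2 e2))
          have e5 : |c p.1 * c' p.2| ≤ Q ^ 2 := by
            rw [abs_mul, pow_two]
            exact mul_le_mul e3 e4 (abs_nonneg _) hQ0
          rw [← sq_abs]
          exact pow_le_pow_left₀ (abs_nonneg _) e5 2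
        · have h4 : ind p.1 p.2 Z = 0 := by unfold ind; rw [if_neg hp]
          rw [h4, mul_zero, zero_pow two_ne_zero]
          positivity
      calc (∑ p ∈ s, ind p.1 p.2 Z ^ 2) * ∑ p ∈ s, (c p.1 * c' p.2 * ind p.1 p.2 Z *
            co (fun M => pr p.1 p.2 f M ^ 2) Z) ^ 2
          ≤ N * ∑ p ∈ s, (Q ^ 2) ^ 2 * co (fun M => pr p.1 p.2 f M ^ 2) Z ^ 2 :=
            mul_le_mul h2 (Finset.sum_le_sum h3) (Finset.sum_nonneg fun _ _ => sq_nonneg _)
              (by positivity)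
        _ = _ := by rw [← Finset.mul_sum]; ring
  have hgen := generic_bound (co f) hf
  rw [hfour f]
  have h5 : ∀ Z : W →ₗ[F] V, co (fun M => f M ^ 2) Z ^ 2 ≤
      2 * (∑ X, if Gen X Z then co f X * co f (X + Z) else 0) ^ 2 +
      2 * (N * (Q ^ 2) ^ 2 * ∑ p ∈ s, co (fun M => pr p.1 p.2 f M ^ 2) Z ^ 2) := by
    intro Z
    rw [co_sq_eq hc hc' f Z]
    have h6 := key Z
    set x := ∑ X, (if Gen X Z then co f X * co f (X + Z) else 0) with hx
    set y := ∑ p ∈ s, ind p.1 p.2 Z * (c p.1 * c' p.2 * ind p.1 p.2 Z *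
        co (fun M => pr p.1 p.2 f M ^ 2) Z) with hy
    nlinarith [sq_nonneg (x + y)]
  calc ∑ Z, co (fun M => f M ^ 2) Z ^ 2
      ≤ ∑ Z, (2 * (∑ X, if Gen X Z then co f X * co f (X + Z) else 0) ^ 2 +
      2 * (N * (Q ^ 2) ^ 2 * ∑ p ∈ s, co (fun M => pr p.1 p.2 f M ^ 2) Z ^ 2)) :=
        Finset.sum_le_sum fun Z _ => h5 Z
    _ = 2 * ∑ Z, (∑ X, if Gen X Z then co f X * co f (X + Z) else 0) ^ 2 +
        2 * (N * (Q ^ 2) ^ 2 * ∑ p ∈ s, ∑ Z, co (fun M => pr p.1 p.2 f M ^ 2) Z ^ 2) := by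
        rw [Finset.sum_add_distrib, ← Finset.mul_sum, ← Finset.mul_sum, ← Finset.mul_sum,
          Finset.sum_comm (s := univ) (t := s)]
    _ ≤ _ := by
        refine add_le_add ?_ (le_of_eq ?_)
        · unfold K1
          rw [parseval]
          linarith [hgen]
        · unfold K2
          have h7 : ∀ p : Submodule F W × Submodule F V,
              ∑ Z, co (fun M => pr p.1 p.2 f M ^ 2) Z ^ 2 = av (fun M => pr p.1 p.2 f M ^ 4) :=
            fun p => (hfour _).symm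
          simp_rw [h7]
          ring

end Vale.Agent.P325.H792
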