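import Vale.Agent.P325.Star.Defs

/-!
# Fourier analysis on the space of linear maps over the field with two elements
-/

set_option linter.unusedSectionVars false

namespace Vale.Agent.P325.H792

open Vale.Agent.P325.Star Finset Module

/-- the sign of an element of the field with two elements -/
def sgn (a : F) : ℝ := if a = 0 then 1 else -1

lemma sgn_zero : sgn 0 = 1 := by simp [sgn]

lemma sgn_add (a b : F) : sgn (a + b) = sgn a * sgn b := by
  revert a b
  have h : ∀ a : F, a = 0 ∨ a = 1 := by decide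
  intro a b
  have h11 : (1 : F) + 1 = 0 := by decide
  rcases h a with rfl | rfl <;> rcases h b with rfl | rfl <;> simp [sgn, h11]

lemma sgn_mul_self (a : F) : sgn a * sgn a = 1 := by
  unfold sgn; split_ifs <;> norm_num

lemma abs_sgn (a : F) : |sgn a| = 1 := by
  unfold sgn; split_ifs <;> norm_num

lemma sgn_of_ne {a : F} (h : a ≠ 0) : sgn a = -1 := by simp [sgn, h]

section basic

variable {V W : Type} [AddCommGroup V] [Module F V] [Finite V] [AddCommGroup W] [Module F W]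
  [Finite W]

instance instFiniteHom : Finite (V →ₗ[F] W) := DFunLike.finite _

noncomputable instance instFintypeHom : Fintype (V →ₗ[F] W) := Fintype.ofFinite _

/-- the character attached to `X` -/
noncomputable def chi (X : W →ₗ[F] V) (M : V →ₗ[F] W) : ℝ := sgn (LinearMap.trace F V (X ∘ₗ M))

lemma chi_add_left (X Y : W →ₗ[F] V) (M : V →ₗ[F] W) : chi (X + Y) M = chi X M * chi Y M := by
  unfold chi; rw [LinearMap.add_comp, map_add, sgn_add]

lemma chi_add_right (X : W →ₗ[F] V) (M N : V →ₗ[F] W) : chi X (M + N) = chi X M * chi X N := by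
  unfold chi; rw [LinearMap.comp_add, map_add, sgn_add]

lemma chi_zero_left (M : V →ₗ[F] W) : chi (0 : W →ₗ[F] V) M = 1 := by
  unfold chi; simp [sgn_zero]

lemma chi_zero_right (X : W →ₗ[F] V) : chi X (0 : V →ₗ[F] W) = 1 := by
  unfold chi; simp [sgn_zero]

lemma chi_mul_self (X : W →ₗ[F] V) (M : V →ₗ[F] W) : chi X M * chi X M = 1 := sgn_mul_self _

lemma abs_chi (X : W →ₗ[F] V) (M : V →ₗ[F] W) : |chi X M| = 1 := abs_sgn _

lemma chi_comm (X : W →ₗ[F] V) (M : V →ₗ[F] W) : chi X M = chi M X := by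
  unfold chi; rw [LinearMap.trace_comp_comm' M X]

lemma chi_one (X : W →ₗ[F] V) (w : W) (ψ : Dual F V) : chi X (one w ψ) = sgn (ψ (X w)) := by
  unfold chi one
  have h : X ∘ₗ ψ.smulRight w = ψ.smulRight (X w) := by
    ext v; simp
  rw [h, LinearMap.trace_smulRight]

lemma exists_chi {X : W →ₗ[F] V} (hX : X ≠ 0) : ∃ M : V →ₗ[F] W, chi X M = -1 := by
  obtain ⟨w, hw⟩ : ∃ w, X w ≠ 0 := by
    by_contra h
    push Not at h
    exact hX (LinearMap.ext h)
  obtain ⟨ψ, hψ⟩ : ∃ ψ : Dual F V, ψ (X w) ≠ 0 := by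
    by_contra h
    push Not at h
    exact hw ((forall_dual_apply_eq_zero_iff F (X w)).1 h)
  exact ⟨one w ψ, by rw [chi_one, sgn_of_ne hψ]⟩

/-- the number of linear maps -/
noncomputable def nn (V W : Type) [AddCommGroup V] [Module F V] [AddCommGroup W] [Module F W] : ℝ :=
  (Nat.card (V →ₗ[F] W) : ℝ)

variable (V W) in
lemma nn_pos : 0 < nn V W := by
  unfold nn; exact_mod_cast Nat.card_pos

variable (V W) in
lemma nn_eq : nn V W = (Fintype.card (V →ₗ[F] W) : ℝ) := by
  unfold nn; rw [Nat.card_eq_fintype_card]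

variable (V W) in
lemma nn_comm : nn V W = nn W V := by
  unfold nn
  rw [natCard_eq_pow_finrank (K := F) (V := V →ₗ[F] W),
    natCard_eq_pow_finrank (K := F) (V := W →ₗ[F] V), finrank_linearMap, finrank_linearMap,
    mul_comm]

lemma sum_translate (f : (V →ₗ[F] W) → ℝ) (N : V →ₗ[F] W) : ∑ M, f (M + N) = ∑ M, f M :=
  Equiv.sum_comp (Equiv.addRight N) f

open Classical in
lemma sum_chi_right (X : W →ₗ[F] V) :
    ∑ M : V →ₗ[F] W, chi X M = if X = 0 then nn V W else 0 := by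
  split_ifs with h
  · subst h
    simp [chi_zero_left, nn_eq]
  · obtain ⟨N, hN⟩ := exists_chi h
    have h1 : ∑ M : V →ₗ[F] W, chi X M = ∑ M : V →ₗ[F] W, chi X (M + N) :=
      (Equiv.sum_comp (Equiv.addRight N) (chi X)).symm
    have h2 : ∑ M : V →ₗ[F] W, chi X (M + N) = -∑ M : V →ₗ[F] W, chi X M := by
      rw [← Finset.sum_neg_distrib]
      refine Finset.sum_congr rfl fun M _ => ?_
      rw [chi_add_right, hN]; ring
    linarith

open Classical in
lemma sum_chi_left (M : V →ₗ[F] W) :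
    ∑ X : W →ₗ[F] V, chi X M = if M = 0 then nn V W else 0 := by
  have h := sum_chi_right (V := W) (W := V) M
  rw [nn_comm W V] at h
  rw [← h]
  exact Finset.sum_congr rfl fun X _ => chi_comm X M

lemma add_self_hom (M : V →ₗ[F] W) : M + M = 0 := by
  ext v; simp [ZModModule.add_self]

lemma add_eq_zero_hom {M N : V →ₗ[F] W} : M + N = 0 ↔ M = N := by
  constructor
  · intro h
    have h1 : M + N + N = N := by rw [h, zero_add]
    rw [add_assoc, add_self_hom, add_zero] at h1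
    exact h1
  · rintro rfl; exact add_self_hom M

lemma sub_eq_add_hom (M N : V →ₗ[F] W) : M - N = M + N := by
  rw [sub_eq_iff_eq_add, add_assoc, add_self_hom, add_zero]

/-- averages -/
noncomputable def av (f : (V →ₗ[F] W) → ℝ) : ℝ := (∑ M, f M) / nn V W

lemma av_add (f g : (V →ₗ[F] W) → ℝ) : av (fun M => f M + g M) = av f + av g := by
  unfold av; rw [Finset.sum_add_distrib, add_div]

lemma av_sum {ι : Type*} (s : Finset ι) (f : ι → (V →ₗ[F] W) → ℝ) :
    av (fun M => ∑ i ∈ s, f i M) = ∑ i ∈ s, av (f i) := by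
  unfold av; rw [Finset.sum_comm, Finset.sum_div]

lemma av_mul_left (c : ℝ) (f : (V →ₗ[F] W) → ℝ) : av (fun M => c * f M) = c * av f := by
  unfold av; rw [← Finset.mul_sum, mul_div_assoc]

lemma av_const (c : ℝ) : av (fun _ : V →ₗ[F] W => c) = c := by
  unfold av
  rw [Finset.sum_const, Finset.card_univ, nsmul_eq_mul, ← nn_eq, mul_div_cancel_left₀ _
    (nn_pos V W).ne']

lemma av_mono {f g : (V →ₗ[F] W) → ℝ} (h : ∀ M, f M ≤ g M) : av f ≤ av g := by
  unfold av
  exact div_le_div_of_nonneg_right (Finset.sum_le_sum fun M _ => h M) (nn_pos V W).le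

lemma av_nonneg {f : (V →ₗ[F] W) → ℝ} (h : ∀ M, 0 ≤ f M) : 0 ≤ av f := by
  have := av_mono (f := fun _ => 0) h
  rwa [av_const] at this

lemma av_translate (f : (V →ₗ[F] W) → ℝ) (N : V →ₗ[F] W) : av (fun M => f (M + N)) = av f := by
  unfold av
  rw [sum_translate f N]

/-- Fourier coefficients -/
noncomputable def co (f : (V →ₗ[F] W) → ℝ) (X : W →ₗ[F] V) : ℝ := av fun M => f M * chi X M

/-- the function with given Fourier coefficients -/
noncomputable def ev (a : (W →ₗ[F] V) → ℝ) (M : V →ₗ[F] W) : ℝ := ∑ X, a X * chi X M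

theorem ev_co (f : (V →ₗ[F] W) → ℝ) (M : V →ₗ[F] W) : ev (co f) M = f M := by
  classical
  unfold ev co av
  have h1 : ∀ X : W →ₗ[F] V, (∑ N, f N * chi X N) / nn V W * chi X M =
      (∑ N, f N * chi X (N + M)) / nn V W := by
    intro X
    rw [div_mul_eq_mul_div, Finset.sum_mul]
    congr 1
    refine Finset.sum_congr rfl fun N _ => ?_
    rw [chi_add_right]; ring
  rw [Finset.sum_congr rfl fun X _ => h1 X, ← Finset.sum_div, Finset.sum_comm]
  have h2 : ∀ N : V →ₗ[F] W, ∑ X, f N * chi X (N + M) = if N = M then f N * nn V W else 0 := by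
    intro N
    rw [← Finset.mul_sum, sum_chi_left]
    by_cases h : N = M
    · simp [h, add_self_hom]
    · have : N + M ≠ 0 := fun h' => h (add_eq_zero_hom.1 h')
      simp [h, this]
  rw [Finset.sum_congr rfl fun N _ => h2 N, Finset.sum_ite_eq' univ M]
  simp only [Finset.mem_univ, if_true]
  rw [mul_div_assoc, div_self (nn_pos V W).ne', mul_one]

open Classical in
lemma av_chi_mul (X Y : W →ₗ[F] V) : av (fun M : V →ₗ[F] W => chi X M * chi Y M) =
    if X = Y then 1 else 0 := by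
  unfold av
  have h1 : ∀ M : V →ₗ[F] W, chi X M * chi Y M = chi (X + Y) M := fun M => (chi_add_left _ _ _).symm
  rw [Finset.sum_congr rfl fun M _ => h1 M, sum_chi_right]
  by_cases h : X = Y
  · simp [h, add_self_hom, (nn_pos V W).ne']
  · have : X + Y ≠ 0 := fun h' => h (add_eq_zero_hom.1 h')
    simp [h, this]

theorem co_ev (a : (W →ₗ[F] V) → ℝ) (X : W →ₗ[F] V) : co (ev a) X = a X := by
  classical
  unfold co ev
  have h1 : ∀ M : V →ₗ[F] W, (∑ Y, a Y * chi Y M) * chi X M = ∑ Y, a Y * (chi Y M * chi X M) := by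
    intro M; rw [Finset.sum_mul]; exact Finset.sum_congr rfl fun Y _ => by ring
  simp_rw [h1]
  rw [av_sum]
  simp_rw [av_mul_left, av_chi_mul]
  simp

/-- Plancherel formula -/
theorem plancherel (f g : (V →ₗ[F] W) → ℝ) : av (fun M => f M * g M) = ∑ X, co f X * co g X := by
  have h1 : ∀ M, f M * g M = ∑ X, co f X * (g M * chi X M) := by
    intro M
    conv_lhs => rw [← ev_co f M]
    unfold ev
    rw [Finset.sum_mul]
    exact Finset.sum_congr rfl fun X _ => by ring
  simp_rw [h1]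
  rw [av_sum]
  simp_rw [av_mul_left]
  rfl

theorem parseval (f : (V →ₗ[F] W) → ℝ) : av (fun M => f M ^ 2) = ∑ X, co f X ^ 2 := by
  simp_rw [pow_two]; exact plancherel f f

theorem co_mul (f g : (V →ₗ[F] W) → ℝ) (Z : W →ₗ[F] V) :
    co (fun M => f M * g M) Z = ∑ X, co f X * co g (X + Z) := by
  have h1 : ∀ X, co g (X + Z) = co (fun M => g M * chi Z M) X := by
    intro X
    unfold co
    congr 1
    funext M
    rw [chi_add_left]; ring
  simp_rw [h1]
  rw [← plancherel]
  unfold co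
  congr 1
  funext M
  ring

/-! ## Multipliers -/

/-- the Fourier multiplier `l` -/
noncomputable def mo (l : (W →ₗ[F] V) → ℝ) (f : (V →ₗ[F] W) → ℝ) : (V →ₗ[F] W) → ℝ :=
  ev fun X => l X * co f X

lemma co_mo (l : (W →ₗ[F] V) → ℝ) (f : (V →ₗ[F] W) → ℝ) (X : W →ₗ[F] V) :
    co (mo l f) X = l X * co f X := co_ev _ X

lemma co_inj {f g : (V →ₗ[F] W) → ℝ} (h : ∀ X, co f X = co g X) : f = g := by
  funext M
  rw [← ev_co f M, ← ev_co g M]
  congr 1
  funext X; exact h X

/-- the multiplier `l` is an average of translations of total mass at most `C` -/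
def Bd (C : ℝ) (l : (W →ₗ[F] V) → ℝ) : Prop :=
  ∃ ν : (V →ₗ[F] W) → ℝ, ∑ N, |ν N| ≤ C ∧ ∀ X, l X = ∑ N, ν N * chi X N

lemma mo_eq {l : (W →ₗ[F] V) → ℝ} {ν : (V →ₗ[F] W) → ℝ} (h : ∀ X, l X = ∑ N, ν N * chi X N)
    (f : (V →ₗ[F] W) → ℝ) (M : V →ₗ[F] W) : mo l f M = ∑ N, ν N * f (M + N) := by
  unfold mo ev
  have h1 : ∀ N, ν N * f (M + N) = ∑ X, ν N * chi X N * co f X * chi X M := by
    intro N
    rw [← ev_co f (M + N)]
    unfold ev
    rw [Finset.mul_sum]
    exact Finset.sum_congr rfl fun X _ => by rw [chi_add_right]; ring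
  simp_rw [h1]
  rw [Finset.sum_comm]
  refine Finset.sum_congr rfl fun X _ => ?_
  rw [h X, Finset.sum_mul, Finset.sum_mul]

lemma Bd.nonneg {C : ℝ} {l : (W →ₗ[F] V) → ℝ} (h : Bd C l) : 0 ≤ C := by
  obtain ⟨ν, h1, -⟩ := h
  exact (Finset.sum_nonneg fun N _ => abs_nonneg _).trans h1

lemma Bd.mono {C C' : ℝ} {l : (W →ₗ[F] V) → ℝ} (h : Bd C l) (hC : C ≤ C') : Bd C' l := by
  obtain ⟨ν, h1, h2⟩ := h
  exact ⟨ν, h1.trans hC, h2⟩

lemma bd_const (c : ℝ) : Bd |c| (fun _ : W →ₗ[F] V => c) := by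
  classical
  refine ⟨fun N => if N = 0 then c else 0, ?_, fun X => ?_⟩
  · have : ∀ N : V →ₗ[F] W, |if N = 0 then c else 0| = if N = 0 then |c| else 0 := by
      intro N; split_ifs <;> simp
    simp_rw [this]
    simp
  · simp [chi_zero_right]

lemma Bd.add {C D : ℝ} {l k : (W →ₗ[F] V) → ℝ} (h : Bd C l) (h' : Bd D k) :
    Bd (C + D) fun X => l X + k X := by
  obtain ⟨ν, h1, h2⟩ := h
  obtain ⟨μ, h3, h4⟩ := h'
  refine ⟨fun N => ν N + μ N, ?_, fun X => ?_⟩
  · calc ∑ N, |ν N + μ N| ≤ ∑ N, (|ν N| + |μ N|) := Finset.sum_le_sum fun N _ => abs_add_le _ _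
      _ ≤ C + D := by rw [Finset.sum_add_distrib]; exact add_le_add h1 h3
  · show l X + k X = ∑ N, (ν N + μ N) * chi X N
    rw [h2, h4, ← Finset.sum_add_distrib]
    exact Finset.sum_congr rfl fun N _ => by ring

lemma Bd.cmul {C : ℝ} {l : (W →ₗ[F] V) → ℝ} (h : Bd C l) (c : ℝ) :
    Bd (|c| * C) fun X => c * l X := by
  obtain ⟨ν, h1, h2⟩ := h
  refine ⟨fun N => c * ν N, ?_, fun X => ?_⟩
  · simp_rw [abs_mul]
    rw [← Finset.mul_sum]
    exact mul_le_mul_of_nonneg_left h1 (abs_nonneg c)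
  · show c * l X = ∑ N, c * ν N * chi X N
    rw [h2, Finset.mul_sum]
    exact Finset.sum_congr rfl fun N _ => by ring

lemma Bd.mul {C D : ℝ} {l k : (W →ₗ[F] V) → ℝ} (h : Bd C l) (h' : Bd D k) :
    Bd (C * D) fun X => l X * k X := by
  have hD := h'.nonneg
  obtain ⟨ν, h1, h2⟩ := h
  obtain ⟨μ, h3, h4⟩ := h'
  refine ⟨fun N => ∑ N', ν N' * μ (N + N'), ?_, fun X => ?_⟩
  · calc ∑ N, |∑ N', ν N' * μ (N + N')| ≤ ∑ N, ∑ N', |ν N'| * |μ (N + N')| := by
          refine Finset.sum_le_sum fun N _ => (Finset.abs_sum_le_sum_abs _ _).trans ?_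
          exact Finset.sum_le_sum fun N' _ => (abs_mul _ _).le
      _ = ∑ N', |ν N'| * ∑ N, |μ (N + N')| := by
          rw [Finset.sum_comm]
          exact Finset.sum_congr rfl fun N' _ => (Finset.mul_sum _ _ _).symm
      _ = ∑ N', |ν N'| * ∑ N, |μ N| := by
          refine Finset.sum_congr rfl fun N' _ => ?_
          rw [sum_translate (fun N => |μ N|) N']
      _ ≤ C * D := by
          rw [← Finset.sum_mul]
          exact mul_le_mul h1 h3 (Finset.sum_nonneg fun _ _ => abs_nonneg _)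
            ((Finset.sum_nonneg fun _ _ => abs_nonneg _).trans h1)
  · show l X * k X = ∑ N, (∑ N', ν N' * μ (N + N')) * chi X N
    have h5 : ∀ N : V →ₗ[F] W, (∑ N', ν N' * μ (N + N')) * chi X N =
        ∑ N', (ν N' * chi X N') * (μ (N + N') * chi X (N + N')) := by
      intro N
      rw [Finset.sum_mul]
      refine Finset.sum_congr rfl fun N' _ => ?_
      rw [chi_add_right]
      have := chi_mul_self X N'
      linear_combination -(ν N' * μ (N + N') * chi X N) * this
    simp_rw [h5]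
    rw [Finset.sum_comm]
    have h6 : ∀ N' : V →ₗ[F] W, ∑ N, ν N' * chi X N' * (μ (N + N') * chi X (N + N')) =
        ν N' * chi X N' * k X := by
      intro N'
      rw [← Finset.mul_sum, sum_translate (fun N => μ N * chi X N) N', h4 X]
    rw [Finset.sum_congr rfl fun N' _ => h6 N', ← Finset.sum_mul, h2 X]

lemma bd_prod {ι : Type*} (s : Finset ι) (C : ι → ℝ) (l : ι → (W →ₗ[F] V) → ℝ)
    (h : ∀ i ∈ s, Bd (C i) (l i)) : Bd (∏ i ∈ s, C i) fun X => ∏ i ∈ s, l i X := by
  classical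
  induction s using Finset.induction_on with
  | empty => simpa using bd_const (V := V) (W := W) 1
  | insert i s hi ih =>
    simp_rw [Finset.prod_insert hi]
    exact (h i (Finset.mem_insert_self i s)).mul (ih fun j hj => h j (Finset.mem_insert_of_mem hj))

lemma sq_sum_le (ν x : (V →ₗ[F] W) → ℝ) {C : ℝ} (h : ∑ N, |ν N| ≤ C) :
    (∑ N, ν N * x N) ^ 2 ≤ C * ∑ N, |ν N| * x N ^ 2 := by
  have h1 : (∑ N, ν N * x N) ^ 2 ≤ (∑ N, |ν N|) * ∑ N, |ν N| * x N ^ 2 := by
    have h2 : |∑ N, ν N * x N| ≤ ∑ N, √|ν N| * (√|ν N| * |x N|) := by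
      refine (Finset.abs_sum_le_sum_abs _ _).trans (Finset.sum_le_sum fun N _ => ?_)
      rw [← mul_assoc, Real.mul_self_sqrt (abs_nonneg _), abs_mul]
    have h3 := Finset.sum_mul_sq_le_sq_mul_sq univ (fun N => √|ν N|) (fun N => √|ν N| * |x N|)
    have h4 : ∀ N, √|ν N| ^ 2 = |ν N| := fun N => Real.sq_sqrt (abs_nonneg _)
    have h5 : ∀ N, (√|ν N| * |x N|) ^ 2 = |ν N| * x N ^ 2 := fun N => by
      rw [mul_pow, h4, sq_abs]
    simp_rw [h4, h5] at h3
    calc (∑ N, ν N * x N) ^ 2 = |∑ N, ν N * x N| ^ 2 := (sq_abs _).symm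
      _ ≤ _ := (pow_le_pow_left₀ (abs_nonneg _) h2 2).trans h3
  exact h1.trans (mul_le_mul_of_nonneg_right h
    (Finset.sum_nonneg fun N _ => mul_nonneg (abs_nonneg _) (sq_nonneg _)))

end basic

end Vale.Agent.P325.H792
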