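import Vale.Agent.P325.H792.Fourier
import Vale.Agent.P325.H924.ALin

/-!
# Restrictions to zooms and global functions
-/

set_option linter.unusedSectionVars false

namespace Vale.Agent.P325.H792

open Vale.Agent.P325.Star Vale.Agent.P325.H924 Finset Module

section res

variable {V W U Z : Type} [AddCommGroup V] [Module F V] [Finite V] [AddCommGroup W] [Module F W]
  [Finite W] [AddCommGroup U] [Module F U] [Finite U] [AddCommGroup Z] [Module F Z] [Finite Z]

/-- the embedding `Hom(Z, U) → Hom(V, W)` -/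
def emb (i : U →ₗ[F] W) (q : V →ₗ[F] Z) (M : Z →ₗ[F] U) : V →ₗ[F] W := i ∘ₗ M ∘ₗ q

/-- the restriction of characters -/
def rst (i : U →ₗ[F] W) (q : V →ₗ[F] Z) (X : W →ₗ[F] V) : U →ₗ[F] Z := q ∘ₗ X ∘ₗ i

/-- the restriction of functions -/
def res (i : U →ₗ[F] W) (q : V →ₗ[F] Z) (f : (V →ₗ[F] W) → ℝ) (M₀ : V →ₗ[F] W) :
    (Z →ₗ[F] U) → ℝ := fun M => f (M₀ + emb i q M)

lemma chi_emb (i : U →ₗ[F] W) (q : V →ₗ[F] Z) (X : W →ₗ[F] V) (M : Z →ₗ[F] U) :
    chi X (emb i q M) = chi (rst i q X) M := by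
  unfold chi emb rst
  congr 1
  have h1 : X ∘ₗ i ∘ₗ M ∘ₗ q = (X ∘ₗ i ∘ₗ M) ∘ₗ q := rfl
  have h2 : (q ∘ₗ X ∘ₗ i) ∘ₗ M = q ∘ₗ (X ∘ₗ i ∘ₗ M) := rfl
  rw [h1, h2, LinearMap.trace_comp_comm' q (X ∘ₗ i ∘ₗ M)]

open Classical in
lemma res_eq_ev (i : U →ₗ[F] W) (q : V →ₗ[F] Z) (f : (V →ₗ[F] W) → ℝ) (M₀ : V →ₗ[F] W) :
    res i q f M₀ = ev fun X' => ∑ X, if rst i q X = X' then co f X * chi X M₀ else 0 := by
  funext M
  unfold res
  rw [← ev_co f (M₀ + emb i q M)]
  unfold ev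
  simp_rw [Finset.sum_mul]
  rw [Finset.sum_comm]
  refine Finset.sum_congr rfl fun X _ => ?_
  simp_rw [ite_mul, zero_mul]
  rw [Finset.sum_ite_eq univ (rst i q X)]
  simp only [Finset.mem_univ, if_true]
  rw [chi_add_right, chi_emb]; ring

open Classical in
lemma co_res (i : U →ₗ[F] W) (q : V →ₗ[F] Z) (f : (V →ₗ[F] W) → ℝ) (M₀ : V →ₗ[F] W)
    (X' : U →ₗ[F] Z) : co (res i q f M₀) X' =
      ∑ X, if rst i q X = X' then co f X * chi X M₀ else 0 := by
  rw [res_eq_ev, co_ev]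

/-- averaging over all cosets -/
lemma av_res (i : U →ₗ[F] W) (q : V →ₗ[F] Z) (f : (V →ₗ[F] W) → ℝ) :
    av (fun M₀ : V →ₗ[F] W => av (res i q f M₀)) = av f := by
  unfold av res
  rw [← Finset.sum_div, Finset.sum_comm]
  have h1 : ∀ M : Z →ₗ[F] U, ∑ M₀, f (M₀ + emb i q M) = ∑ M₀, f M₀ := fun M =>
    sum_translate f _
  rw [Finset.sum_congr rfl fun M _ => h1 M, Finset.sum_const, Finset.card_univ, nsmul_eq_mul,
    ← nn_eq, mul_div_cancel_left₀ _ (nn_pos Z U).ne']

lemma res_translate (i : U →ₗ[F] W) (q : V →ₗ[F] Z) (f : (V →ₗ[F] W) → ℝ) (M₀ N : V →ₗ[F] W)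
    (M : Z →ₗ[F] U) : res i q f (M₀ + N) M = f (M₀ + emb i q M + N) := by
  unfold res; congr 1; abel

end res

section glob

variable {V W : Type} [AddCommGroup V] [Module F V] [Finite V] [AddCommGroup W] [Module F W]
  [Finite W]

lemma finrank_quot_id : finrank F (W ⧸ LinearMap.range (LinearMap.id : W →ₗ[F] W)) = 0 := by
  have e1 := Submodule.finrank_quotient_add_finrank (LinearMap.range (LinearMap.id : W →ₗ[F] W))
  have e2 : finrank F (LinearMap.range (LinearMap.id : W →ₗ[F] W)) = finrank F W := by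
    rw [LinearMap.range_id, finrank_top]
  omega

lemma finrank_ker_id : finrank F (LinearMap.ker (LinearMap.id : V →ₗ[F] V)) = 0 := by
  rw [LinearMap.ker_id, finrank_bot]

/-- the second moments of `f` on all zooms of codimension at most `R` are at most `ε` -/
def Glob (R : ℕ) (ε : ℝ) (f : (V →ₗ[F] W) → ℝ) : Prop :=
  ∀ (U Z : Type) [AddCommGroup U] [Module F U] [Finite U] [AddCommGroup Z] [Module F Z] [Finite Z]
    (i : U →ₗ[F] W) (q : V →ₗ[F] Z), Function.Injective i → Function.Surjective q →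
    finrank F (W ⧸ LinearMap.range i) ≤ R → finrank F (LinearMap.ker q) ≤ R → ∀ M₀ : V →ₗ[F] W,
      av (fun M => res i q f M₀ M ^ 2) ≤ ε

lemma Glob.mono {R R' : ℕ} {ε ε' : ℝ} {f : (V →ₗ[F] W) → ℝ} (h : Glob R ε f) (hR : R' ≤ R)
    (hε : ε ≤ ε') : Glob R' ε' f := by
  intro U Z _ _ _ _ _ _ i q hi hq h1 h2 M₀
  exact (h U Z i q hi hq (h1.trans hR) (h2.trans hR) M₀).trans hε

lemma Glob.nonneg {R : ℕ} {ε : ℝ} {f : (V →ₗ[F] W) → ℝ} (h : Glob R ε f) : 0 ≤ ε := by
  refine le_trans (av_nonneg fun M => sq_nonneg (res LinearMap.id LinearMap.id f 0 M)) ?_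
  exact h W V LinearMap.id LinearMap.id Function.injective_id Function.surjective_id
    (by rw [finrank_quot_id]; exact Nat.zero_le _) (by rw [finrank_ker_id]; exact Nat.zero_le _) 0

lemma Glob.av_sq {R : ℕ} {ε : ℝ} {f : (V →ₗ[F] W) → ℝ} (h : Glob R ε f) :
    av (fun M => f M ^ 2) ≤ ε := by
  have h1 := h W V LinearMap.id LinearMap.id Function.injective_id Function.surjective_id
    (by rw [finrank_quot_id]; exact Nat.zero_le _) (by rw [finrank_ker_id]; exact Nat.zero_le _) 0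
  have h2 : (fun M => res LinearMap.id LinearMap.id f 0 M ^ 2) = fun M => f M ^ 2 := by
    funext M; unfold res emb; simp
  rwa [h2] at h1

/-- averages of translates of global functions are global -/
lemma Glob.mo {R : ℕ} {ε C : ℝ} {f : (V →ₗ[F] W) → ℝ} (h : Glob R ε f)
    {l : (W →ₗ[F] V) → ℝ} (hl : Bd C l) : Glob R (C ^ 2 * ε) (mo l f) := by
  have hC := hl.nonneg
  obtain ⟨ν, h1, h2⟩ := hl
  intro U Z _ _ _ _ _ _ i q hi hq h3 h4 M₀
  have h5 : ∀ M, res i q (H792.mo l f) M₀ M ^ 2 ≤ C * ∑ N, |ν N| * res i q f (M₀ + N) M ^ 2 := by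
    intro M
    have h6 : res i q (H792.mo l f) M₀ M = ∑ N, ν N * res i q f (M₀ + N) M := by
      unfold res
      rw [mo_eq h2]
      refine Finset.sum_congr rfl fun N _ => ?_
      congr 2; abel
    rw [h6]
    exact sq_sum_le ν (fun N => res i q f (M₀ + N) M) h1
  calc av (fun M => res i q (H792.mo l f) M₀ M ^ 2)
      ≤ av (fun M => C * ∑ N, |ν N| * res i q f (M₀ + N) M ^ 2) := av_mono h5
    _ = C * ∑ N, |ν N| * av (fun M => res i q f (M₀ + N) M ^ 2) := by
        rw [av_mul_left, av_sum]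
        simp_rw [av_mul_left]
    _ ≤ C * ∑ N, |ν N| * ε := by
        refine mul_le_mul_of_nonneg_left (Finset.sum_le_sum fun N _ => ?_) hC
        exact mul_le_mul_of_nonneg_left (h U Z i q hi hq h3 h4 (M₀ + N)) (abs_nonneg _)
    _ ≤ C * (C * ε) := by
        rw [← Finset.sum_mul]
        exact mul_le_mul_of_nonneg_left (mul_le_mul_of_nonneg_right h1 h.nonneg) hC
    _ = C ^ 2 * ε := by ring

/-- sums of global functions -/
lemma Glob.sum {R : ℕ} {ε : ℝ} {ι : Type*} (s : Finset ι) {f : ι → (V →ₗ[F] W) → ℝ}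
    (h : ∀ j ∈ s, Glob R ε (f j)) : Glob R ((s.card : ℝ) ^ 2 * ε) fun M => ∑ j ∈ s, f j M := by
  intro U Z _ _ _ _ _ _ i q hi hq h3 h4 M₀
  have h5 : ∀ M, res i q (fun M => ∑ j ∈ s, f j M) M₀ M ^ 2 ≤
      s.card * ∑ j ∈ s, res i q (f j) M₀ M ^ 2 := by
    intro M
    exact sq_sum_le_card_mul_sum_sq
  calc _ ≤ av (fun M => (s.card : ℝ) * ∑ j ∈ s, res i q (f j) M₀ M ^ 2) := av_mono h5
    _ = s.card * ∑ j ∈ s, av (fun M => res i q (f j) M₀ M ^ 2) := by
        rw [av_mul_left, av_sum]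
    _ ≤ s.card * ∑ j ∈ s, ε := by
        refine mul_le_mul_of_nonneg_left (Finset.sum_le_sum fun j hj => ?_) (Nat.cast_nonneg _)
        exact h j hj U Z i q hi hq h3 h4 M₀
    _ = (s.card : ℝ) ^ 2 * ε := by
        rw [Finset.sum_const, nsmul_eq_mul]; ring

/-- restrictions of global functions are global -/
lemma Glob.res {R c : ℕ} {ε : ℝ} {f : (V →ₗ[F] W) → ℝ} (h : Glob (R + c) ε f)
    {U Z : Type} [AddCommGroup U] [Module F U] [Finite U] [AddCommGroup Z] [Module F Z] [Finite Z]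
    {i : U →ₗ[F] W} {q : V →ₗ[F] Z} (hi : Function.Injective i) (hq : Function.Surjective q)
    (h1 : finrank F (W ⧸ LinearMap.range i) ≤ c) (h2 : finrank F (LinearMap.ker q) ≤ c)
    (M₀ : V →ₗ[F] W) : Glob R ε (res i q f M₀) := by
  intro U' Z' _ _ _ _ _ _ i' q' hi' hq' h3 h4 M₁
  have h5 : finrank F (W ⧸ LinearMap.range (i ∘ₗ i')) ≤ R + c := by
    have e1 := Submodule.finrank_quotient_add_finrank (LinearMap.range (i ∘ₗ i'))
    have e2 := Submodule.finrank_quotient_add_finrank (LinearMap.range i)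
    have e3 := Submodule.finrank_quotient_add_finrank (LinearMap.range i')
    have e4 : finrank F (LinearMap.range (i ∘ₗ i')) = finrank F U' :=
      LinearMap.finrank_range_of_inj (hi.comp hi')
    have e5 : finrank F (LinearMap.range i) = finrank F U := LinearMap.finrank_range_of_inj hi
    have e6 : finrank F (LinearMap.range i') = finrank F U' := LinearMap.finrank_range_of_inj hi'
    omega
  have h6 : finrank F (LinearMap.ker (q' ∘ₗ q)) ≤ R + c := by
    have e1 := LinearMap.finrank_range_add_finrank_ker (q' ∘ₗ q)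
    have e2 := LinearMap.finrank_range_add_finrank_ker q
    have e3 := LinearMap.finrank_range_add_finrank_ker q'
    have e4 : LinearMap.range (q' ∘ₗ q) = ⊤ := LinearMap.range_eq_top.2 (hq'.comp hq)
    have e5 : LinearMap.range q = ⊤ := LinearMap.range_eq_top.2 hq
    have e6 : LinearMap.range q' = ⊤ := LinearMap.range_eq_top.2 hq'
    rw [e4, finrank_top] at e1
    rw [e5, finrank_top] at e2
    rw [e6, finrank_top] at e3
    omega
  have h7 := h U' Z' (i ∘ₗ i') (q' ∘ₗ q) (hi.comp hi') (hq'.comp hq) h5 h6 (M₀ + emb i q M₁)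
  have h8 : (fun M => H792.res i' q' (H792.res i q f M₀) M₁ M ^ 2) =
      fun M => H792.res (i ∘ₗ i') (q' ∘ₗ q) f (M₀ + emb i q M₁) M ^ 2 := by
    funext M
    unfold H792.res
    congr 2
    have : emb i q (M₁ + emb i' q' M) = emb i q M₁ + emb (i ∘ₗ i') (q' ∘ₗ q) M := by
      unfold emb
      rw [LinearMap.add_comp, LinearMap.comp_add]
      rfl
    rw [this]; abel
  rw [h8]
  exact h7

end glob

end Vale.Agent.P325.H792
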