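import Vale.Agent.P325.H792.Mult

/-!
# Homogeneous parts and projections preserve globalness
-/

set_option linter.unusedSectionVars false

namespace Vale.Agent.P325.H792

open Vale.Agent.P325.Star Vale.Agent.P325.H924 Finset Module LinearMap

instance instFiniteQuot {V : Type} [AddCommGroup V] [Module F V] [Finite V] (A : Submodule F V) :
    Finite (V ⧸ A) := Quotient.finite _

section rank

variable {V W U Z : Type} [AddCommGroup V] [Module F V] [Finite V] [AddCommGroup W] [Module F W]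
  [Finite W] [AddCommGroup U] [Module F U] [Finite U] [AddCommGroup Z] [Module F Z] [Finite Z]

lemma rk_comp_right (i : U →ₗ[F] W) (X : W →ₗ[F] V) :
    rk (X ∘ₗ i) + finrank F (range i ⊓ ker X : Submodule F W) = finrank F (range i) := by
  have h := finrank_map_add X (range i)
  rw [← LinearMap.range_comp] at h
  exact h

lemma rk_comp_left (q : V →ₗ[F] Z) (X : W →ₗ[F] V) :
    rk (q ∘ₗ X) + finrank F (range X ⊓ ker q : Submodule F V) = rk X := by
  have h := finrank_map_add q (range X)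
  rw [← LinearMap.range_comp] at h
  exact h

lemma rk_rst_le (i : U →ₗ[F] W) (q : V →ₗ[F] Z) (X : W →ₗ[F] V) : rk (rst i q X) ≤ rk X := by
  have h1 := rk_comp_left q (X ∘ₗ i)
  have h2 := rk_comp_right i X
  have h3 : rk (X ∘ₗ i) ≤ rk X := by
    unfold rk
    exact Submodule.finrank_mono (LinearMap.range_comp_le_range i X)
  unfold rst
  omega

lemma rk_le_rst (i : U →ₗ[F] W) (q : V →ₗ[F] Z) (X : W →ₗ[F] V) :
    rk X ≤ rk (rst i q X) + finrank F (W ⧸ range i) + finrank F (ker q) := by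
  have h1 := rk_comp_left q (X ∘ₗ i)
  have h2 := rk_comp_right i X
  have h3 : finrank F (range i ⊓ ker X : Submodule F W) ≤ finrank F (ker X) :=
    Submodule.finrank_mono inf_le_right
  have h4 : finrank F (range (X ∘ₗ i) ⊓ ker q : Submodule F V) ≤ finrank F (ker q) :=
    Submodule.finrank_mono inf_le_right
  have h5 : rk X + finrank F (ker X) = finrank F W := LinearMap.finrank_range_add_finrank_ker X
  have h6 := Submodule.finrank_quotient_add_finrank (range i)
  unfold rst
  omega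

lemma rk_rst_lt {B : Submodule F W} {A : Submodule F V} {X : W →ₗ[F] V} (hB : ker X ≤ B)
    (hA : A ≤ range X) (h : ¬(B = ⊤ ∧ A = ⊥)) : rk (rst B.subtype A.mkQ X) < rk X := by
  have h1 := rk_comp_left A.mkQ (X ∘ₗ B.subtype)
  have h2 := rk_comp_right B.subtype X
  have h5 : rk X + finrank F (ker X) = finrank F W := LinearMap.finrank_range_add_finrank_ker X
  rw [Submodule.range_subtype, inf_eq_right.2 hB] at h2
  rw [Submodule.ker_mkQ] at h1
  unfold rst
  by_cases hBt : B = ⊤
  · have hA0 : A ≠ ⊥ := fun h' => h ⟨hBt, h'⟩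
    subst hBt
    have h3 : range (X ∘ₗ (⊤ : Submodule F W).subtype) = range X := by
      rw [LinearMap.range_comp, Submodule.range_subtype, LinearMap.range_eq_map]
    have h4 : 0 < finrank F A := by
      rw [Module.finrank_pos_iff]
      exact (Submodule.nontrivial_iff_ne_bot).2 hA0
    rw [h3, inf_eq_right.2 hA] at h1
    have h6 : rk (X ∘ₗ (⊤ : Submodule F W).subtype) = rk X := by unfold rk; rw [h3]
    omega
  · have h3 : finrank F B < finrank F W := Submodule.finrank_lt hBt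
    omega

end rank

variable {V W : Type} [AddCommGroup V] [Module F V] [Finite V] [AddCommGroup W] [Module F W]
  [Finite W]

lemma mk_zero (X : W →ₗ[F] V) : mk 0 X = (1 / 2) ^ rk X := by
  unfold mk
  rw [if_pos]
  rw [LinearMap.ker_zero]; exact le_top

/-- interpolation polynomial in `2 ^ (-rk X)` -/
noncomputable def pol (ρ m : ℕ) (x : ℝ) : ℝ :=
  ∏ j ∈ (Finset.range (m + 1)).erase ρ, ((1 / 2 : ℝ) ^ ρ - (1 / 2) ^ j)⁻¹ * (x + -(1 / 2) ^ j)

/-- its norm -/
noncomputable def polC (ρ m : ℕ) : ℝ :=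
  ∏ j ∈ (Finset.range (m + 1)).erase ρ,
    |((1 / 2 : ℝ) ^ ρ - (1 / 2) ^ j)⁻¹| * (1 + |-(1 / 2 : ℝ) ^ j|)

lemma bd_pol (ρ m : ℕ) : Bd (polC ρ m) fun X : W →ₗ[F] V => pol ρ m ((1 / 2) ^ rk X) := by
  refine bd_prod _ _ _ fun j _ => ?_
  refine Bd.cmul ?_ _
  have h := (bd_mk (V := V) (W := W) 0).add (bd_const (-(1 / 2 : ℝ) ^ j))
  simp_rw [mk_zero] at h
  exact h

lemma pow_half_inj {j k : ℕ} (h : (1 / 2 : ℝ) ^ j = (1 / 2) ^ k) : j = k :=
  pow_right_injective₀ (by norm_num) (by norm_num) h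

lemma pol_self (ρ m : ℕ) : pol ρ m ((1 / 2) ^ ρ) = 1 := by
  unfold pol
  refine Finset.prod_eq_one fun j hj => ?_
  have h1 : (1 / 2 : ℝ) ^ ρ - (1 / 2) ^ j ≠ 0 := by
    intro h
    exact (Finset.mem_erase.1 hj).1 (pow_half_inj (sub_eq_zero.1 h)).symm
  rw [← sub_eq_add_neg]
  exact inv_mul_cancel₀ h1

lemma pol_ne {ρ m k : ℕ} (hk : k ≤ m) (h : k ≠ ρ) : pol ρ m ((1 / 2) ^ k) = 0 := by
  unfold pol
  refine Finset.prod_eq_zero (Finset.mem_erase.2 ⟨h, Finset.mem_range.2 (by omega)⟩) ?_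
  ring

/-- homogeneous part of rank `ρ` -/
noncomputable def hpart (ρ : ℕ) (f : (V →ₗ[F] W) → ℝ) : (V →ₗ[F] W) → ℝ :=
  mo (fun X => if rk X = ρ then 1 else 0) f

lemma co_hpart (ρ : ℕ) (f : (V →ₗ[F] W) → ℝ) (X : W →ₗ[F] V) :
    co (hpart ρ f) X = if rk X = ρ then co f X else 0 := by
  unfold hpart
  rw [co_mo]; split_ifs <;> ring

/-- homogeneous parts of global functions are global -/
lemma Glob.hpart {R : ℕ} {ε : ℝ} {f : (V →ₗ[F] W) → ℝ} (h : Glob R ε f) (ρ : ℕ) :
    Glob R (polC ρ (ρ + 2 * R) ^ 2 * ε) (hpart ρ f) := by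
  classical
  have h1 := h.mo (bd_pol (V := V) (W := W) ρ (ρ + 2 * R))
  set g := H792.mo (fun X : W →ₗ[F] V => pol ρ (ρ + 2 * R) ((1 / 2) ^ rk X)) f with hg
  intro U Z _ _ _ _ _ _ i q hi hq h3 h4 M₀
  refine le_trans ?_ (h1 U Z i q hi hq h3 h4 M₀)
  rw [parseval, parseval]
  refine Finset.sum_le_sum fun X' _ => ?_
  rw [co_res, co_res]
  by_cases hX' : rk X' ≤ ρ
  · have h5 : ∀ X : W →ₗ[F] V, (if rst i q X = X' then co (H792.hpart ρ f) X * chi X M₀ else 0) =
        if rst i q X = X' then co g X * chi X M₀ else 0 := by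
      intro X
      split_ifs with h6
      · rw [co_hpart, hg, co_mo]
        have h7 := rk_le_rst i q X
        rw [h6] at h7
        by_cases h8 : rk X = ρ
        · rw [if_pos h8, h8, pol_self, one_mul]
        · rw [if_neg h8, pol_ne (by omega) h8]; simp
      · rfl
    rw [Finset.sum_congr rfl fun X _ => h5 X]
  · have h5 : ∑ X : W →ₗ[F] V, (if rst i q X = X' then co (H792.hpart ρ f) X * chi X M₀ else 0) = 0 := by
      refine Finset.sum_eq_zero fun X _ => ?_
      split_ifs with h6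
      · rw [co_hpart, if_neg, zero_mul]
        have h7 := rk_rst_le i q X
        rw [h6] at h7
        omega
      · rfl
    rw [h5]
    simp only [ne_eq, OfNat.ofNat_ne_zero, not_false_eq_true, zero_pow]
    exact sq_nonneg _

/-- the indicator of `ker X ≤ B`, `A ≤ range X` -/
noncomputable def ind (B : Submodule F W) (A : Submodule F V) (X : W →ₗ[F] V) : ℝ :=
  haveI := Classical.dec (ker X ≤ B ∧ A ≤ range X)
  if ker X ≤ B ∧ A ≤ range X then 1 else 0

lemma ind_top_bot (X : W →ₗ[F] V) : ind ⊤ ⊥ X = 1 := by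
  unfold ind; rw [if_pos ⟨le_top, bot_le⟩]

lemma ind_sq (B : Submodule F W) (A : Submodule F V) (X : W →ₗ[F] V) :
    ind B A X ^ 2 = ind B A X := by
  unfold ind; split_ifs <;> norm_num

lemma exists_ind (B : Submodule F W) (A : Submodule F V) (ρ : ℕ) :
    ∃ l : (W →ₗ[F] V) → ℝ, Bd ((2 ^ ρ) ^ (finrank F (W ⧸ B) + finrank F A)) l ∧
      ∀ X, rk X = ρ → l X = ind B A X := by
  classical
  have e1 : finrank F B.dualAnnihilator = finrank F (W ⧸ B) := by
    have h1 := Subspace.finrank_add_finrank_dualAnnihilator_eq B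
    have h2 := Submodule.finrank_quotient_add_finrank B
    omega
  set b := finBasis F B.dualAnnihilator with hb
  set c := finBasis F A with hc
  have hC : ∀ φ : Dual F W, Bd (2 ^ ρ) fun X : W →ₗ[F] V => 2 ^ ρ * mk φ X := by
    intro φ
    have := (bd_mk (V := V) φ).cmul (2 ^ ρ)
    rwa [mul_one, abs_of_pos (by positivity)] at this
  have hD : ∀ a : V, Bd (2 ^ ρ) fun X : W →ₗ[F] V => 2 ^ ρ * mr a X := by
    intro a
    have := (bd_mr (W := W) a).cmul (2 ^ ρ)
    rwa [mul_one, abs_of_pos (by positivity)] at this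
  have h1 := bd_prod univ (fun _ => (2 : ℝ) ^ ρ) (fun j (X : W →ₗ[F] V) => 2 ^ ρ * mk (b j : Dual F W) X)
    fun j _ => hC (b j)
  have h2 := bd_prod univ (fun _ => (2 : ℝ) ^ ρ) (fun j (X : W →ₗ[F] V) => 2 ^ ρ * mr (c j : V) X)
    fun j _ => hD (c j)
  have h3 := h1.mul h2
  rw [Finset.prod_const, Finset.prod_const, Finset.card_univ, Finset.card_univ, Fintype.card_fin,
    Fintype.card_fin, ← pow_add] at h3
  rw [← e1]
  refine ⟨_, h3, fun X hX => ?_⟩
  have h4 : (2 : ℝ) ^ ρ * (1 / 2) ^ ρ = 1 := by rw [← mul_pow]; norm_num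
  have h5 : ∀ φ : Dual F W, 2 ^ ρ * mk φ X = if ker X ≤ ker φ then 1 else 0 := by
    intro φ
    unfold mk
    rw [hX]
    split_ifs
    · exact h4
    · ring
  have h6 : ∀ a : V, 2 ^ ρ * mr a X = if a ∈ range X then 1 else 0 := by
    intro a
    unfold mr
    rw [hX]
    split_ifs
    · exact h4
    · ring
  have h7 : (∀ j, ker X ≤ ker (b j : Dual F W)) ↔ ker X ≤ B := by
    constructor
    · intro h u hu
      have h8 : u ∈ B.dualAnnihilator.dualCoannihilator := by
        rw [Submodule.mem_dualCoannihilator]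
        intro ψ hψ
        have h9 : (⟨ψ, hψ⟩ : B.dualAnnihilator) ∈ Submodule.span F (Set.range b) := by
          rw [b.span_eq]; trivial
        have h10 : Submodule.span F (Set.range b) ≤
            ker ((Dual.eval F W u) ∘ₗ B.dualAnnihilator.subtype) := by
          rw [Submodule.span_le]
          rintro _ ⟨j, rfl⟩
          exact h j hu
        exact h10 h9
      rwa [Subspace.dualAnnihilator_dualCoannihilator_eq] at h8
    · intro h j u hu
      exact (Submodule.mem_dualAnnihilator _).1 (b j).2 u (h hu)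
  have h8 : (∀ j, (c j : V) ∈ range X) ↔ A ≤ range X := by
    constructor
    · intro h a ha
      have h9 : (⟨a, ha⟩ : A) ∈ Submodule.span F (Set.range c) := by
        rw [c.span_eq]; trivial
      have h10 : Submodule.span F (Set.range c) ≤ (range X).comap A.subtype := by
        rw [Submodule.span_le]
        rintro _ ⟨j, rfl⟩
        exact h j
      exact h10 h9
    · intro h j
      exact h (c j).2
  show (∏ j, 2 ^ ρ * mk (b j : Dual F W) X) * (∏ j, 2 ^ ρ * mr (c j : V) X) = ind B A X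
  simp_rw [h5, h6]
  unfold ind
  rw [Finset.prod_ite_zero, Finset.prod_ite_zero]
  simp only [Finset.mem_univ, forall_true_left, Finset.prod_const_one, h7, h8]
  by_cases h9 : ker X ≤ B <;> by_cases h10 : A ≤ range X <;> simp [h9, h10]

/-- `f_{B,A}` -/
noncomputable def pr (B : Submodule F W) (A : Submodule F V) (f : (V →ₗ[F] W) → ℝ) :
    (V →ₗ[F] W) → ℝ := mo (ind B A) f

lemma co_pr (B : Submodule F W) (A : Submodule F V) (f : (V →ₗ[F] W) → ℝ) (X : W →ₗ[F] V) :
    co (pr B A f) X = ind B A X * co f X := co_mo _ _ _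

/-- all coefficients of rank at least `d` vanish -/
def Deg (d : ℕ) (f : (V →ₗ[F] W) → ℝ) : Prop := ∀ X : W →ₗ[F] V, d ≤ rk X → co f X = 0

/-- the constant of `Glob.pr` -/
noncomputable def prC (d R : ℕ) : ℝ :=
  (d : ℝ) ^ 2 * (((2 ^ d : ℝ) ^ (2 * d)) ^ 2 * ∑ ρ ∈ Finset.range d, polC ρ (ρ + 2 * R) ^ 2)

lemma Glob.pr {R d : ℕ} {ε : ℝ} {f : (V →ₗ[F] W) → ℝ} (h : Glob R ε f) (hd : Deg d f)
    {B : Submodule F W} {A : Submodule F V} (hB : finrank F (W ⧸ B) ≤ d) (hA : finrank F A ≤ d) :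
    Glob R (prC d R * ε) (pr B A f) := by
  classical
  have hε := h.nonneg
  have h1 : ∀ ρ ∈ Finset.range d, Glob R (((2 ^ d : ℝ) ^ (2 * d)) ^ 2 *
      (∑ ρ ∈ Finset.range d, polC ρ (ρ + 2 * R) ^ 2) * ε) (H792.mo (ind B A) (H792.hpart ρ f)) := by
    intro ρ hρ
    obtain ⟨l, hl, hl'⟩ := exists_ind B A ρ
    have h2 := (h.hpart ρ).mo hl
    have h3 : H792.mo l (H792.hpart ρ f) = H792.mo (ind B A) (H792.hpart ρ f) := by
      refine co_inj fun X => ?_
      rw [co_mo, co_mo, co_hpart]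
      by_cases h4 : rk X = ρ
      · rw [hl' X h4]
      · rw [if_neg h4, mul_zero, mul_zero]
    rw [h3] at h2
    refine h2.mono le_rfl ?_
    rw [← mul_assoc]
    refine mul_le_mul_of_nonneg_right ?_ hε
    refine mul_le_mul ?_ ?_ (sq_nonneg _) (by positivity)
    · refine pow_le_pow_left₀ (by positivity) ?_ 2
      have hρ' : ρ ≤ d := (Finset.mem_range.1 hρ).le
      calc ((2 : ℝ) ^ ρ) ^ (finrank F (W ⧸ B) + finrank F A)
          ≤ (2 ^ d) ^ (finrank F (W ⧸ B) + finrank F A) :=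
            pow_le_pow_left₀ (by positivity) (pow_le_pow_right₀ (by norm_num) hρ') _
        _ ≤ (2 ^ d) ^ (2 * d) :=
            pow_le_pow_right₀ (one_le_pow₀ (by norm_num)) (by omega)
    · exact Finset.single_le_sum (f := fun ρ => polC ρ (ρ + 2 * R) ^ 2) (fun _ _ => sq_nonneg _) hρ
  have h2 := Glob.sum (Finset.range d) h1
  have h3 : (fun M => ∑ ρ ∈ Finset.range d, H792.mo (ind B A) (H792.hpart ρ f) M) = H792.pr B A f := by
    refine co_inj fun X => ?_
    have h4 : co (fun M => ∑ ρ ∈ Finset.range d, H792.mo (ind B A) (H792.hpart ρ f) M) X =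
        ∑ ρ ∈ Finset.range d, co (H792.mo (ind B A) (H792.hpart ρ f)) X := by
      unfold co
      simp_rw [Finset.sum_mul]
      rw [av_sum]
    rw [h4, co_pr]
    simp_rw [co_mo, co_hpart]
    by_cases h5 : rk X < d
    · rw [Finset.sum_eq_single (rk X)]
      · simp
      · intro ρ _ hne
        rw [if_neg (Ne.symm hne), mul_zero]
      · intro h6
        exact absurd (Finset.mem_range.2 h5) h6
    · have h6 : co f X = 0 := hd X (not_lt.1 h5)
      rw [h6]
      simp
  rw [h3, Finset.card_range] at h2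
  refine h2.mono le_rfl (le_of_eq ?_)
  unfold prC; ring

end Vale.Agent.P325.H792
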