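import Vale.Agent.P325.H792.FC

/-!
# Global hypercontractivity and the level inequality
-/

set_option linter.unusedSectionVars false

namespace Vale.Agent.P325.H792

open Vale.Agent.P325.Star Vale.Agent.P325.H924 Finset Module LinearMap

/-- existence of the coefficients for inclusion and exclusion -/
def Moebius : Prop := ∃ Φ : ℕ → ℝ, (∀ k, 0 ≤ Φ k) ∧
  (∀ (W : Type) [AddCommGroup W] [Module F W] [Finite W], ∃ c : Submodule F W → ℝ, MoebW Φ c) ∧
  ∀ (V : Type) [AddCommGroup V] [Module F V] [Finite V], ∃ c : Submodule F V → ℝ, MoebV Φ c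

/-- the fourth moment bound for global functions of degree less than `d` -/
def Hyp (d R : ℕ) (K : ℝ) : Prop :=
  ∀ (V W : Type) [AddCommGroup V] [Module F V] [Finite V] [AddCommGroup W] [Module F W] [Finite W]
    (f : (V →ₗ[F] W) → ℝ) (ε : ℝ), Deg d f → Glob R ε f →
    av (fun M => f M ^ 4) ≤ K * ε * av fun M => f M ^ 2

section step

variable {V W : Type} [AddCommGroup V] [Module F V] [Finite V] [AddCommGroup W] [Module F W]
  [Finite W]

lemma eq_zero_of_co {f : (V →ₗ[F] W) → ℝ} (h : ∀ X, co f X = 0) : f = fun _ => 0 := by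
  funext M
  rw [← ev_co f M]
  unfold ev
  simp [h]

lemma ind_nonneg (B : Submodule F W) (A : Submodule F V) (X : W →ₗ[F] V) : 0 ≤ ind B A X := by
  rw [← ind_sq]; exact sq_nonneg _

/-- the part `f_{B,A}` vanishes if `B` or `A` is too small or too large -/
lemma pr_eq_zero {d : ℕ} {f : (V →ₗ[F] W) → ℝ} (hf : Deg d f) {B : Submodule F W}
    {A : Submodule F V} (h : ¬(finrank F (W ⧸ B) ≤ d ∧ finrank F A ≤ d)) :
    pr B A f = fun _ => 0 := by
  refine eq_zero_of_co fun X => ?_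
  rw [co_pr]
  by_cases hX : d ≤ rk X
  · rw [hf X hX, mul_zero]
  · have h1 : ¬(ker X ≤ B ∧ A ≤ range X) := by
      rintro ⟨h2, h3⟩
      apply h
      have f1 := Submodule.finrank_quotient_add_finrank B
      have f2 : finrank F (ker X) ≤ finrank F B := Submodule.finrank_mono h2
      have f3 : rk X + finrank F (ker X) = finrank F W :=
        LinearMap.finrank_range_add_finrank_ker X
      have f4 : finrank F A ≤ rk X := Submodule.finrank_mono h3
      omega
    unfold ind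
    rw [if_neg h1, zero_mul]

/-- restricting `f_{B,A}` lowers the degree -/
lemma deg_res {d : ℕ} {f : (V →ₗ[F] W) → ℝ} (hf : Deg (d + 1) f) {B : Submodule F W}
    {A : Submodule F V} (h : ¬(B = ⊤ ∧ A = ⊥)) (M₀ : V →ₗ[F] W) :
    Deg d (res B.subtype A.mkQ (pr B A f) M₀) := by
  classical
  intro X' hX'
  rw [co_res]
  refine Finset.sum_eq_zero fun X _ => ?_
  split_ifs with h1
  · rw [co_pr]
    by_cases h2 : ker X ≤ B ∧ A ≤ range X
    · have h3 := rk_rst_lt h2.1 h2.2 h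
      rw [h1] at h3
      rw [hf X (by omega)]; ring
    · unfold ind
      rw [if_neg h2]; ring
  · rfl

lemma av_pr_four {d R₀ : ℕ} {K₀ : ℝ} (hyp : Hyp d R₀ K₀) {f : (V →ₗ[F] W) → ℝ} {ε : ℝ}
    (hf : Deg (d + 1) f) (hG : Glob (R₀ + (d + 1)) ε f) {B : Submodule F W} {A : Submodule F V}
    (h : ¬(B = ⊤ ∧ A = ⊥)) :
    av (fun M => pr B A f M ^ 4) ≤ K₀ * (prC (d + 1) (R₀ + (d + 1)) * ε) *
      av fun M => pr B A f M ^ 2 := by
  by_cases h1 : finrank F (W ⧸ B) ≤ d + 1 ∧ finrank F A ≤ d + 1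
  · have h2 := hG.pr hf h1.1 h1.2
    have h3 : ∀ M₀ : V →ₗ[F] W, av (fun M => res B.subtype A.mkQ (pr B A f) M₀ M ^ 4) ≤
        K₀ * (prC (d + 1) (R₀ + (d + 1)) * ε) *
          av fun M => res B.subtype A.mkQ (pr B A f) M₀ M ^ 2 := by
      intro M₀
      refine hyp _ _ _ _ (deg_res hf h M₀) ?_
      refine h2.res (Submodule.subtype_injective B) (Submodule.mkQ_surjective A) ?_ ?_ M₀
      · rw [Submodule.range_subtype]; exact h1.1
      · rw [Submodule.ker_mkQ]; exact h1.2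
    have h4 := av_res B.subtype A.mkQ (fun M : V →ₗ[F] W => pr B A f M ^ 4)
    have h5 := av_res B.subtype A.mkQ (fun M : V →ₗ[F] W => pr B A f M ^ 2)
    rw [← h4, ← h5, ← av_mul_left]
    exact av_mono h3
  · rw [pr_eq_zero hf h1]
    have e4 : av (fun _ : V →ₗ[F] W => (0 : ℝ) ^ 4) = 0 := by simp [av_const]
    have e2 : av (fun _ : V →ₗ[F] W => (0 : ℝ) ^ 2) = 0 := by simp [av_const]
    rw [e4, e2, mul_zero]

open Classical in
lemma sum_av_pr {d : ℕ} {f : (V →ₗ[F] W) → ℝ} (hf : Deg d f) :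
    ∑ p ∈ (univ : Finset (Submodule F W × Submodule F V)).erase (⊤, ⊥),
      av (fun M => pr p.1 p.2 f M ^ 2) ≤ ((2 : ℝ) ^ 2 ^ d) ^ 2 * av fun M => f M ^ 2 := by
  have h1 : ∀ p : Submodule F W × Submodule F V, av (fun M => pr p.1 p.2 f M ^ 2) =
      ∑ X, ind p.1 p.2 X * co f X ^ 2 := by
    intro p
    rw [parseval]
    refine Finset.sum_congr rfl fun X _ => ?_
    rw [co_pr, mul_pow, ind_sq]
  calc _ ≤ ∑ p : Submodule F W × Submodule F V, av (fun M => pr p.1 p.2 f M ^ 2) :=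
        Finset.sum_le_sum_of_subset_of_nonneg (Finset.erase_subset _ _) fun p _ _ =>
          av_nonneg fun M => sq_nonneg _
    _ = ∑ X, (∑ p : Submodule F W × Submodule F V, ind p.1 p.2 X) * co f X ^ 2 := by
        simp_rw [h1, Finset.sum_mul]
        rw [Finset.sum_comm]
    _ ≤ ∑ X, ((2 : ℝ) ^ 2 ^ d) ^ 2 * co f X ^ 2 := by
        refine Finset.sum_le_sum fun X _ => ?_
        by_cases hX : d ≤ rk X
        · rw [hf X hX]; simp
        · refine mul_le_mul_of_nonneg_right ((sum_ind_le X).trans ?_) (sq_nonneg _)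
          refine pow_le_pow_left₀ (by positivity) ?_ 2
          exact pow_le_pow_right₀ (by norm_num) (pow_le_pow_right₀ (by norm_num) (by omega))
    _ = _ := by rw [← Finset.mul_sum, parseval]

end step

lemma K1_nonneg (d : ℕ) : 0 ≤ K1 d := by unfold K1; positivity

lemma K2_nonneg (Φ : ℕ → ℝ) (d : ℕ) : 0 ≤ K2 Φ d := by unfold K2; positivity

lemma polC_nonneg (ρ m : ℕ) : 0 ≤ polC ρ m := by
  unfold polC
  refine Finset.prod_nonneg fun j _ => ?_
  positivity

lemma prC_nonneg (d R : ℕ) : 0 ≤ prC d R := by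
  unfold prC
  have : 0 ≤ ∑ ρ ∈ Finset.range d, polC ρ (ρ + 2 * R) ^ 2 :=
    Finset.sum_nonneg fun _ _ => sq_nonneg _
  positivity

/-- **Global hypercontractivity** on spaces of linear maps. -/
theorem hyper (hM : Moebius) (d : ℕ) : ∃ (R : ℕ) (K : ℝ), 0 ≤ K ∧ Hyp d R K := by
  classical
  obtain ⟨Φ, hΦ, hMW, hMV⟩ := hM
  induction d with
  | zero =>
    refine ⟨0, 0, le_rfl, ?_⟩
    intro V W _ _ _ _ _ _ f ε hf _
    have h := eq_zero_of_co (f := f) fun X => hf X (Nat.zero_le _)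
    rw [h]
    simp [av_const]
  | succ d ih =>
    obtain ⟨R₀, K₀, hK₀, hyp⟩ := ih
    set R := R₀ + (d + 1) with hR
    refine ⟨R, K1 (d + 1) + K2 Φ (d + 1) * (K₀ * prC (d + 1) R * ((2 : ℝ) ^ 2 ^ (d + 1)) ^ 2),
      ?_, ?_⟩
    · have := K1_nonneg (d + 1)
      have := K2_nonneg Φ (d + 1)
      have := prC_nonneg (d + 1) R
      positivity
    intro V W _ _ _ _ _ _ f ε hf hG
    obtain ⟨c, hc⟩ := hMW W
    obtain ⟨c', hc'⟩ := hMV V
    have hε := hG.nonneg
    have h1 := fourth hΦ hc hc' hf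
    have h2 : av (fun M => f M ^ 2) ^ 2 ≤ ε * av fun M => f M ^ 2 := by
      rw [pow_two (av _)]
      exact mul_le_mul_of_nonneg_right hG.av_sq (av_nonneg fun M => sq_nonneg _)
    have h3 : ∑ p ∈ (univ : Finset (Submodule F W × Submodule F V)).erase (⊤, ⊥),
        av (fun M => pr p.1 p.2 f M ^ 4) ≤
        K₀ * (prC (d + 1) R * ε) * (((2 : ℝ) ^ 2 ^ (d + 1)) ^ 2 * av fun M => f M ^ 2) := by
      calc _ ≤ ∑ p ∈ (univ : Finset (Submodule F W × Submodule F V)).erase (⊤, ⊥),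
            K₀ * (prC (d + 1) R * ε) * av (fun M => pr p.1 p.2 f M ^ 2) := by
            refine Finset.sum_le_sum fun p hp => ?_
            refine av_pr_four hyp hf hG ?_
            rintro ⟨e1, e2⟩
            exact (Finset.mem_erase.1 hp).1 (Prod.ext e1 e2)
        _ ≤ _ := by
            rw [← Finset.mul_sum]
            have := prC_nonneg (d + 1) R
            exact mul_le_mul_of_nonneg_left (sum_av_pr hf) (by positivity)
    calc av (fun M => f M ^ 4) ≤ _ := h1
      _ ≤ K1 (d + 1) * (ε * av fun M => f M ^ 2) + K2 Φ (d + 1) *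
          (K₀ * (prC (d + 1) R * ε) * (((2 : ℝ) ^ 2 ^ (d + 1)) ^ 2 * av fun M => f M ^ 2)) :=
          add_le_add (mul_le_mul_of_nonneg_left h2 (K1_nonneg _))
            (mul_le_mul_of_nonneg_left h3 (K2_nonneg _ _))
      _ = _ := by ring

/-! ## The level inequality -/

section level

variable {V W : Type} [AddCommGroup V] [Module F V] [Finite V] [AddCommGroup W] [Module F W]
  [Finite W]

lemma deg_hpart (ρ : ℕ) (f : (V →ₗ[F] W) → ℝ) : Deg (ρ + 1) (hpart ρ f) := by
  intro X hX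
  rw [co_hpart, if_neg (by omega)]

lemma av_mul_sq_le (f g : (V →ₗ[F] W) → ℝ) :
    av (fun M => f M * g M) ^ 2 ≤ av (fun M => f M ^ 2) * av fun M => g M ^ 2 := by
  have h := Finset.sum_mul_sq_le_sq_mul_sq univ f g
  unfold av
  have hn := nn_pos V W
  rw [div_pow, div_mul_div_comm, ← pow_two (nn V W)]
  exact div_le_div_of_nonneg_right h (sq_nonneg _)

/-- Hölder's inequality for an indicator function -/
lemma holder_four {f g : (V →ₗ[F] W) → ℝ} (hf : ∀ M, f M = 0 ∨ f M = 1) :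
    av (fun M => f M * g M) ^ 4 ≤ av f ^ 3 * av fun M => g M ^ 4 := by
  have hff : ∀ M, f M ^ 2 = f M := by
    intro M; rcases hf M with h | h <;> rw [h] <;> norm_num
  have hf0 : 0 ≤ av f := av_nonneg fun M => by rw [← hff]; exact sq_nonneg _
  have h1 : av (fun M => f M * g M) ^ 2 ≤ av f * av fun M => f M * g M ^ 2 := by
    have h := av_mul_sq_le f (fun M => f M * g M)
    have e1 : (fun M => f M * (f M * g M)) = fun M => f M * g M := by
      funext M; rw [← mul_assoc, ← pow_two, hff]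
    have e2 : (fun M => (f M * g M) ^ 2) = fun M => f M * g M ^ 2 := by
      funext M; rw [mul_pow, hff]
    have e3 : (fun M => f M ^ 2) = f := by funext M; exact hff M
    rw [e1, e2, e3] at h
    exact h
  have h2 : av (fun M => f M * g M ^ 2) ^ 2 ≤ av f * av fun M => g M ^ 4 := by
    have h := av_mul_sq_le f (fun M => g M ^ 2)
    have e3 : (fun M => f M ^ 2) = f := by funext M; exact hff M
    have e2 : (fun M => (g M ^ 2) ^ 2) = fun M => g M ^ 4 := by funext M; ring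
    rw [e2, e3] at h
    exact h
  calc av (fun M => f M * g M) ^ 4 = (av (fun M => f M * g M) ^ 2) ^ 2 := by ring
    _ ≤ (av f * av fun M => f M * g M ^ 2) ^ 2 := pow_le_pow_left₀ (sq_nonneg _) h1 2
    _ = av f ^ 2 * av (fun M => f M * g M ^ 2) ^ 2 := by ring
    _ ≤ av f ^ 2 * (av f * av fun M => g M ^ 4) :=
        mul_le_mul_of_nonneg_left h2 (sq_nonneg _)
    _ = _ := by ring

lemma av_hpart (ρ : ℕ) (f : (V →ₗ[F] W) → ℝ) :
    av (fun M => hpart ρ f M ^ 2) = av fun M => f M * hpart ρ f M := by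
  rw [parseval, plancherel]
  refine Finset.sum_congr rfl fun X _ => ?_
  rw [co_hpart]
  split_ifs <;> ring

/-- **The level inequality.** -/
lemma level {ρ R : ℕ} {K τ ε : ℝ} (hyp : Hyp (ρ + 1) R K) {f : (V →ₗ[F] W) → ℝ}
    (hf : ∀ M, f M = 0 ∨ f M = 1) (hG : Glob R ε f) (hτ : 0 ≤ τ)
    (hε : K * (polC ρ (ρ + 2 * R) ^ 2 * ε) ≤ τ ^ 3) :
    av (fun M => hpart ρ f M ^ 2) ≤ τ * av f := by
  have hff : ∀ M, f M ^ 2 = f M := by
    intro M; rcases hf M with h | h <;> rw [h] <;> norm_num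
  have hf0 : 0 ≤ av f := av_nonneg fun M => by rw [← hff]; exact sq_nonneg _
  set w := av (fun M => hpart ρ f M ^ 2) with hw
  have hw0 : 0 ≤ w := av_nonneg fun M => sq_nonneg _
  have h1 := hyp V W (hpart ρ f) _ (deg_hpart ρ f) (hG.hpart ρ)
  have h2 := holder_four (g := hpart ρ f) hf
  rw [← av_hpart] at h2
  have h3 : w ^ 4 ≤ av f ^ 3 * (τ ^ 3 * w) := by
    refine h2.trans (mul_le_mul_of_nonneg_left (h1.trans ?_) (by positivity))
    exact mul_le_mul_of_nonneg_right hε hw0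
  by_contra hlt
  push Not at hlt
  have hwpos : 0 < w := lt_of_le_of_lt (mul_nonneg hτ hf0) hlt
  have h4 : (τ * av f) ^ 3 < w ^ 3 := pow_lt_pow_left₀ hlt (mul_nonneg hτ hf0) (by norm_num)
  have h5 : w ^ 3 * w ≤ (τ * av f) ^ 3 * w := by
    calc w ^ 3 * w = w ^ 4 := by ring
      _ ≤ _ := h3
      _ = _ := by ring
  exact absurd (le_of_mul_le_mul_right h5 hwpos) (not_le.2 h4)

open Classical in
/-- the retention probability on the Fourier side -/
lemma retention (r : ℕ) {τ : ℝ} {f : (V →ₗ[F] W) → ℝ} (hf : ∀ M, f M = 0 ∨ f M = 1)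
    (h : ∀ ρ < r, av (fun M => hpart ρ f M ^ 2) ≤ τ * av f) :
    ∑ X : W →ₗ[F] V, (1 / 2) ^ rk X * co f X ^ 2 ≤ (r * τ + (1 / 2) ^ r) * av f := by
  have hff : ∀ M, f M ^ 2 = f M := by
    intro M; rcases hf M with h | h <;> rw [h] <;> norm_num
  have h0 : av f = ∑ X, co f X ^ 2 := by
    rw [← parseval]; congr 1; funext M; exact (hff M).symm
  have h1 : ∀ X : W →ₗ[F] V, (1 / 2 : ℝ) ^ rk X * co f X ^ 2 ≤
      ∑ ρ ∈ Finset.range r, (if rk X = ρ then co f X ^ 2 else 0) + (1 / 2) ^ r * co f X ^ 2 := by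
    intro X
    by_cases hX : rk X < r
    · rw [Finset.sum_ite_eq (Finset.range r) (rk X) (fun _ => co f X ^ 2),
        if_pos (Finset.mem_range.2 hX)]
      have h2 : (1 / 2 : ℝ) ^ rk X ≤ 1 := pow_le_one₀ (by norm_num) (by norm_num)
      have h3 : 0 ≤ (1 / 2 : ℝ) ^ r * co f X ^ 2 := by positivity
      nlinarith [sq_nonneg (co f X)]
    · have h2 : (1 / 2 : ℝ) ^ rk X ≤ (1 / 2) ^ r :=
        pow_le_pow_of_le_one (by norm_num) (by norm_num) (not_lt.1 hX)
      have h3 : 0 ≤ ∑ ρ ∈ Finset.range r, (if rk X = ρ then co f X ^ 2 else 0) :=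
        Finset.sum_nonneg fun ρ _ => by split_ifs <;> positivity
      have h4 := mul_le_mul_of_nonneg_right h2 (sq_nonneg (co f X))
      linarith
  have h2 : ∀ ρ, ∑ X : W →ₗ[F] V, (if rk X = ρ then co f X ^ 2 else 0) =
      av (fun M => hpart ρ f M ^ 2) := by
    intro ρ
    rw [parseval]
    refine Finset.sum_congr rfl fun X _ => ?_
    rw [co_hpart]; split_ifs <;> simp
  calc _ ≤ ∑ X : W →ₗ[F] V, (∑ ρ ∈ Finset.range r, (if rk X = ρ then co f X ^ 2 else 0) +
        (1 / 2) ^ r * co f X ^ 2) := Finset.sum_le_sum fun X _ => h1 X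
    _ = ∑ ρ ∈ Finset.range r, av (fun M => hpart ρ f M ^ 2) + (1 / 2) ^ r * av f := by
        rw [Finset.sum_add_distrib, Finset.sum_comm, ← Finset.mul_sum, ← h0]
        simp_rw [h2]
    _ ≤ ∑ ρ ∈ Finset.range r, τ * av f + (1 / 2) ^ r * av f :=
        add_le_add (Finset.sum_le_sum fun ρ hρ => h ρ (Finset.mem_range.1 hρ)) le_rfl
    _ = _ := by
        rw [Finset.sum_const, Finset.card_range, nsmul_eq_mul]; ring

end level

end Vale.Agent.P325.H792
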