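import Vale.Agent.P325.H792.Hyper

/-!
# Coefficients for inclusion and exclusion over subspaces
-/

set_option linter.unusedSectionVars false

namespace Vale.Agent.P325.H792

open Vale.Agent.P325.Star Vale.Agent.P325.H924 Finset Module LinearMap

/-- the bound for the coefficients -/
noncomputable def Phi : ℕ → ℝ
  | 0 => 1
  | k + 1 => 2 ^ 2 ^ (k + 1) * Phi k + Phi k

lemma Phi_pos (k : ℕ) : 0 < Phi k := by
  induction k with
  | zero => simp [Phi]
  | succ k ih => simp only [Phi]; positivity

lemma Phi_mono {j k : ℕ} (h : j ≤ k) : Phi j ≤ Phi k := by
  induction k, h using Nat.le_induction with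
  | base => exact le_rfl
  | succ k _ ih =>
    simp only [Phi]
    have := Phi_pos k
    have h2 : 0 ≤ 2 ^ 2 ^ (k + 1) * Phi k := by positivity
    linarith

open Classical in
/-- Inclusion and exclusion in a finite partial order with top, with a rank function. -/
lemma exists_moeb {L : Type} [PartialOrder L] [OrderTop L] [Fintype L] (r : L → ℕ)
    (hr : ∀ a b : L, a < b → r b < r a) (hN : ∀ a : L, ((univ.filter fun b => a ≤ b).card : ℝ) ≤
      2 ^ 2 ^ r a) :
    ∃ c : L → ℝ, c ⊤ = 1 ∧ (∀ a, ∑ b, (if a ≤ b then c b else 0) = if a = ⊤ then 1 else 0) ∧
      ∀ a, |c a| ≤ Phi (r a) := by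
  -- construction of the coefficients for the elements of rank at most `n`
  have key : ∀ n : ℕ, ∃ c : L → ℝ, c ⊤ = 1 ∧
      (∀ a, r a ≤ n → ∑ b, (if a ≤ b then c b else 0) = if a = ⊤ then 1 else 0) ∧
      ∀ a, r a ≤ n → |c a| ≤ Phi (r a) := by
    intro n
    induction n with
    | zero =>
      refine ⟨fun a => if a = ⊤ then 1 else 0, by simp, ?_, ?_⟩
      · intro a ha
        have ha' : a = ⊤ := by
          by_contra h
          have := hr a ⊤ (lt_top_iff_ne_top.2 h)
          omega
        subst ha'
        simp [top_le_iff]
      · intro a _
        have := Phi_pos (r a)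
        have h1 : (1 : ℝ) ≤ Phi (r a) := by
          have := Phi_mono (Nat.zero_le (r a))
          simpa [Phi] using this
        dsimp only
        split_ifs
        · simpa using h1
        · simpa using this.le
    | succ n ih =>
      obtain ⟨c, h1, h2, h3⟩ := ih
      refine ⟨fun a => if r a ≤ n then c a else
        if a = ⊤ then 1 else -∑ b, (if a < b ∧ r b ≤ n then c b else 0), ?_, ?_, ?_⟩
      · dsimp only
        split_ifs with h
        · exact h1
        · rfl
        · exact absurd rfl ‹_›
      · intro a ha
        by_cases hn : r a ≤ n
        · rw [← h2 a hn]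
          refine Finset.sum_congr rfl fun b _ => ?_
          by_cases h4 : a ≤ b
          · have h5 : r b ≤ n := by
              rcases h4.eq_or_lt with h7 | h7
              · rwa [← h7]
              · have := hr a b h7; omega
            rw [if_pos h4, if_pos h4]
            exact if_pos h5
          · rw [if_neg h4, if_neg h4]
        · by_cases hat : a = ⊤
          · subst hat
            simp only [top_le_iff, if_true]
            rw [Finset.sum_ite_eq' univ (⊤ : L)]
            simp [hn]
          · rw [if_neg hat]
            have e1 : ∀ b : L, (if a ≤ b then (if r b ≤ n then c b else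
                if b = ⊤ then 1 else -∑ b', (if b < b' ∧ r b' ≤ n then c b' else 0)) else 0) =
                (if a < b ∧ r b ≤ n then c b else 0) +
                (if b = a then -∑ b', (if a < b' ∧ r b' ≤ n then c b' else 0) else 0) := by
              intro b
              by_cases hab : a = b
              · subst hab
                simp [hn, hat]
              · by_cases hab' : a ≤ b
                · have hlt : a < b := lt_of_le_of_ne hab' hab
                  have hrb : r b ≤ n := by have := hr a b hlt; omega
                  simp [hab', hlt, hrb, Ne.symm hab]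
                · have hlt : ¬a < b := fun h => hab' h.le
                  simp [hab', hlt, Ne.symm hab]
            rw [Finset.sum_congr rfl fun b _ => e1 b, Finset.sum_add_distrib,
              Finset.sum_ite_eq' univ a]
            simp
      · intro a ha
        dsimp only
        split_ifs with h4 h5
        · exact h3 a h4
        · have := Phi_mono (Nat.zero_le (r a))
          simpa [Phi] using this
        · have hra : r a = n + 1 := by omega
          rw [abs_neg, hra]
          calc |∑ b, (if a < b ∧ r b ≤ n then c b else 0)|
              ≤ ∑ b, |if a < b ∧ r b ≤ n then c b else 0| := Finset.abs_sum_le_sum_abs _ _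
            _ ≤ ∑ b, (if a ≤ b then Phi n else 0) := by
                refine Finset.sum_le_sum fun b _ => ?_
                by_cases h6 : a < b ∧ r b ≤ n
                · rw [if_pos h6, if_pos h6.1.le]
                  exact (h3 b h6.2).trans (Phi_mono h6.2)
                · rw [if_neg h6, abs_zero]
                  split_ifs
                  · exact (Phi_pos n).le
                  · exact le_rfl
            _ = ((univ.filter fun b => a ≤ b).card : ℝ) * Phi n := by
                rw [Finset.sum_ite, Finset.sum_const_zero, add_zero, Finset.sum_const,
                  nsmul_eq_mul]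
            _ ≤ 2 ^ 2 ^ (n + 1) * Phi n := by
                have := hN a
                rw [hra] at this
                exact mul_le_mul_of_nonneg_right this (Phi_pos n).le
            _ ≤ Phi (n + 1) := by
                simp only [Phi]
                have := (Phi_pos n).le
                linarith
  obtain ⟨c, h1, h2, h3⟩ := key (∑ a, r a)
  have hle : ∀ a, r a ≤ ∑ a, r a := fun a =>
    Finset.single_le_sum (f := r) (fun _ _ => Nat.zero_le _) (Finset.mem_univ a)
  exact ⟨c, h1, fun a => h2 a (hle a), fun a => h3 a (hle a)⟩

open Classical in
lemma card_ge (W : Type) [AddCommGroup W] [Module F W] [Finite W] (E : Submodule F W) :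
    ((univ.filter fun B : Submodule F W => E ≤ B).card : ℝ) ≤ 2 ^ 2 ^ finrank F (W ⧸ E) := by
  have h1 : (univ.filter fun B : Submodule F W => E ≤ B).card ≤
      Nat.card (Submodule F (W ⧸ E)) := by
    rw [← Fintype.card_subtype, ← Nat.card_eq_fintype_card]
    refine Nat.card_le_card_of_injective
      (fun B : {B : Submodule F W // E ≤ B} => B.1.map E.mkQ) ?_
    intro B B' h
    have h2 := congrArg (Submodule.comap E.mkQ) h
    simp only [Submodule.comap_map_mkQ, sup_eq_right.2 B.2, sup_eq_right.2 B'.2] at h2
    exact Subtype.ext h2
  have h2 := card_submodule_le (W ⧸ E)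
  rw [natCard_of_rk (W ⧸ E)] at h2
  exact_mod_cast h1.trans h2

open Classical in
lemma card_le' (V : Type) [AddCommGroup V] [Module F V] [Finite V] (D : Submodule F V) :
    ((univ.filter fun A : Submodule F V => A ≤ D).card : ℝ) ≤ 2 ^ 2 ^ finrank F D := by
  have h1 : (univ.filter fun A : Submodule F V => A ≤ D).card ≤
      Nat.card (Submodule F D) := by
    rw [← Fintype.card_subtype, ← Nat.card_eq_fintype_card]
    refine Nat.card_le_card_of_injective
      (fun A : {A : Submodule F V // A ≤ D} => A.1.comap D.subtype) ?_
    intro A A' h
    have h2 := congrArg (Submodule.map D.subtype) h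
    simp only [Submodule.map_comap_subtype, inf_eq_right.2 A.2, inf_eq_right.2 A'.2] at h2
    exact Subtype.ext h2
  have h2 := card_submodule_le D
  rw [natCard_of_rk D] at h2
  exact_mod_cast h1.trans h2

theorem moebius : Moebius := by
  classical
  refine ⟨Phi, fun k => (Phi_pos k).le, ?_, ?_⟩
  · intro W _ _ _
    obtain ⟨c, h1, h2, h3⟩ := exists_moeb (L := Submodule F W) (fun B => finrank F (W ⧸ B))
      (fun A B h => by
        have e1 := Submodule.finrank_quotient_add_finrank A
        have e2 := Submodule.finrank_quotient_add_finrank B
        have e3 := Submodule.finrank_lt_finrank_of_lt h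
        omega)
      (fun B => card_ge W B)
    exact ⟨c, h1, h2, h3⟩
  · intro V _ _ _
    obtain ⟨c, h1, h2, h3⟩ := exists_moeb (L := (Submodule F V)ᵒᵈ)
      (fun A : (Submodule F V)ᵒᵈ => finrank F (OrderDual.ofDual A : Submodule F V))
      (fun A B h => Submodule.finrank_lt_finrank_of_lt h)
      (fun D => by
        refine le_trans (le_of_eq ?_) (card_le' V (OrderDual.ofDual D))
        norm_cast)
    refine ⟨fun A => c (OrderDual.toDual A), h1, fun D => ?_, fun A => h3 (OrderDual.toDual A)⟩
    have h4 := h2 (OrderDual.toDual D)
    have h5 : ∑ A : Submodule F V, (if A ≤ D then c (OrderDual.toDual A) else 0) =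
        ∑ b : (Submodule F V)ᵒᵈ, (if OrderDual.toDual D ≤ b then c b else 0) :=
      Fintype.sum_equiv OrderDual.toDual _ _ fun A => rfl
    rw [h5, h4]
    rfl

end Vale.Agent.P325.H792
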