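import Vale.Agent.P325.H792.Glob

/-!
# Multipliers depending on the rank, the kernel and the range
-/

set_option linter.unusedSectionVars false

namespace Vale.Agent.P325.H792

open Vale.Agent.P325.Star Vale.Agent.P325.H924 Finset Module LinearMap

section sgn

variable {E : Type} [AddCommGroup E] [Module F E]

open Classical in
lemma sum_sgn [Fintype E] (φ : Dual F E) :
    ∑ e, sgn (φ e) = if φ = 0 then (Fintype.card E : ℝ) else 0 := by
  split_ifs with h
  · subst h
    simp [sgn_zero]
  · obtain ⟨e₀, he⟩ : ∃ e, φ e ≠ 0 := by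
      by_contra h'
      push Not at h'
      exact h (LinearMap.ext h')
    have h1 : ∑ e, sgn (φ (e + e₀)) = ∑ e, sgn (φ e) :=
      Equiv.sum_comp (Equiv.addRight e₀) fun e => sgn (φ e)
    have h2 : ∑ e, sgn (φ (e + e₀)) = -∑ e, sgn (φ e) := by
      rw [← Finset.sum_neg_distrib]
      refine Finset.sum_congr rfl fun e _ => ?_
      rw [map_add, sgn_add, sgn_of_ne he]; ring
    linarith

end sgn

variable {V W : Type} [AddCommGroup V] [Module F V] [Finite V] [AddCommGroup W] [Module F W]
  [Finite W]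

lemma bd_chi (N : V →ₗ[F] W) : Bd 1 (fun X : W →ₗ[F] V => chi X N) := by
  classical
  refine ⟨fun N' => if N' = N then 1 else 0, ?_, fun X => ?_⟩
  · have : ∀ N' : V →ₗ[F] W, |if N' = N then (1 : ℝ) else 0| = if N' = N then 1 else 0 := by
      intro N'; split_ifs <;> simp
    simp_rw [this]
    simp
  · simp

lemma bd_sum {ι : Type*} (s : Finset ι) (C : ι → ℝ) (l : ι → (W →ₗ[F] V) → ℝ)
    (h : ∀ i ∈ s, Bd (C i) (l i)) : Bd (∑ i ∈ s, C i) fun X => ∑ i ∈ s, l i X := by
  classical
  induction s using Finset.induction_on with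
  | empty => simpa using bd_const (V := V) (W := W) 0
  | insert i s hi ih =>
    simp_rw [Finset.sum_insert hi]
    exact (h i (Finset.mem_insert_self i s)).add (ih fun j hj => h j (Finset.mem_insert_of_mem hj))

/-- an average of signed characters -/
lemma bd_family {ι : Type} [Fintype ι] [Nonempty ι] (s : ι → ℝ) (hs : ∀ j, |s j| = 1)
    (N : ι → V →ₗ[F] W) :
    Bd 1 fun X : W →ₗ[F] V => (∑ j, s j * chi X (N j)) / Fintype.card ι := by
  have h := (bd_sum univ (fun j => |s j| * 1) (fun j (X : W →ₗ[F] V) => s j * chi X (N j))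
    fun j _ => (bd_chi (N j)).cmul (s j)).cmul ((Fintype.card ι : ℝ)⁻¹)
  have hpos : (0 : ℝ) < Fintype.card ι := by exact_mod_cast Fintype.card_pos
  have h1 : |(Fintype.card ι : ℝ)⁻¹| * ∑ j : ι, |s j| * 1 = 1 := by
    simp_rw [hs]
    rw [Finset.sum_const, Finset.card_univ, nsmul_eq_mul, abs_of_pos (inv_pos.2 hpos)]
    field_simp
  rw [h1] at h
  have h2 : (fun X : W →ₗ[F] V => (∑ j, s j * chi X (N j)) / Fintype.card ι) =
      fun X => (Fintype.card ι : ℝ)⁻¹ * ∑ j, s j * chi X (N j) := by
    funext X; rw [div_eq_inv_mul]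
  rw [h2]; exact h

lemma natCard_pow (M : Type) [AddCommGroup M] [Module F M] [Finite M] :
    (Nat.card M : ℝ) = 2 ^ finrank F M := by
  rw [natCard_of_rk]; push_cast; rfl

open Classical in
lemma sum_sgn_dual (v : V) : ∑ ψ : Dual F V, sgn (ψ v) = if v = 0 then (2 : ℝ) ^ finrank F V else 0 := by
  have h := sum_sgn (E := Dual F V) (Dual.eval F V v)
  have h1 : (Fintype.card (Dual F V) : ℝ) = 2 ^ finrank F V := by
    rw [← Nat.card_eq_fintype_card, natCard_pow, Subspace.dual_finrank_eq]
  have h2 : Dual.eval F V v = 0 ↔ v = 0 := by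
    constructor
    · intro h
      exact (forall_dual_apply_eq_zero_iff F v).1 fun φ => LinearMap.congr_fun h φ
    · rintro rfl; simp
  rw [h1] at h
  simp_rw [h2] at h
  exact h

/-- the sum over the kernel -/
lemma sum_ker [Fintype W] (X : W →ₗ[F] V) (φ : Dual F W) [DecidablePred fun u => X u = 0] :
    ∑ u, (if X u = 0 then sgn (φ u) else 0) =
      haveI := Classical.dec (ker X ≤ ker φ)
      if ker X ≤ ker φ then (2 : ℝ) ^ finrank F (ker X) else 0 := by
  classical
  have := Fintype.ofFinite (ker X)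
  have h1 : ∑ u, (if X u = 0 then sgn (φ u) else 0) = ∑ u : ker X, sgn ((φ ∘ₗ (ker X).subtype) u) := by
    rw [← Finset.sum_filter]
    refine Finset.sum_bij' (fun u hu => (⟨u, (Finset.mem_filter.1 hu).2⟩ : ker X)) (fun u _ => (u : W))
      (fun _ _ => Finset.mem_univ _) (fun u _ => Finset.mem_filter.2 ⟨Finset.mem_univ _, u.2⟩)
      (fun _ _ => rfl) (fun _ _ => rfl) (fun _ _ => rfl)
  rw [h1, sum_sgn]
  have h2 : φ ∘ₗ (ker X).subtype = 0 ↔ ker X ≤ ker φ := by
    constructor
    · intro h u hu
      exact LinearMap.congr_fun h ⟨u, hu⟩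
    · intro h
      refine LinearMap.ext fun u => ?_
      exact h u.2
  have h3 : (Fintype.card (ker X) : ℝ) = 2 ^ finrank F (ker X) := by
    rw [← Nat.card_eq_fintype_card, natCard_pow]
  simp only [h2, h3]

lemma pow_ker (X : W →ₗ[F] V) : (2 : ℝ) ^ finrank F (ker X) = 2 ^ finrank F W * (1 / 2) ^ rk X := by
  have h : rk X + finrank F (ker X) = finrank F W := LinearMap.finrank_range_add_finrank_ker X
  rw [← h, pow_add, mul_comm ((2 : ℝ) ^ rk X), mul_assoc, ← mul_pow]
  norm_num

/-- the multiplier `2 ^ (-rk X)` on the maps with kernel in `ker φ` -/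
noncomputable def mk (φ : Dual F W) (X : W →ₗ[F] V) : ℝ :=
  haveI := Classical.dec (ker X ≤ ker φ)
  if ker X ≤ ker φ then (1 / 2) ^ rk X else 0

lemma bd_mk (φ : Dual F W) : Bd 1 (mk (V := V) φ) := by
  classical
  have := Fintype.ofFinite W
  have h := bd_family (V := V) (W := W) (ι := W × Dual F V) (fun p => sgn (φ p.1))
    (fun p => abs_sgn _) fun p => one p.1 p.2
  have h1 : mk (V := V) φ = fun X : W →ₗ[F] V =>
      (∑ j : W × Dual F V, sgn (φ j.1) * chi X (one j.1 j.2)) / Fintype.card (W × Dual F V) := by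
    funext X
    have h2 : (Fintype.card (W × Dual F V) : ℝ) = 2 ^ finrank F W * 2 ^ finrank F V := by
      rw [Fintype.card_prod, Nat.cast_mul, ← Nat.card_eq_fintype_card, ← Nat.card_eq_fintype_card,
        natCard_pow, natCard_pow, Subspace.dual_finrank_eq]
    rw [h2, Fintype.sum_prod_type]
    have h3 : ∀ u : W, ∑ ψ : Dual F V, sgn (φ u) * chi X (one u ψ) =
        2 ^ finrank F V * (if X u = 0 then sgn (φ u) else 0) := by
      intro u
      rw [← Finset.mul_sum]
      simp_rw [chi_one]
      rw [sum_sgn_dual]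
      split_ifs <;> ring
    rw [Finset.sum_congr rfl fun u _ => h3 u, ← Finset.mul_sum, sum_ker X φ]
    unfold mk
    split_ifs
    · rw [pow_ker]
      field_simp
    · simp
  rw [h1]; exact h

/-- the multiplier `2 ^ (-rk X)` on the maps with `a` in the range -/
noncomputable def mr (a : V) (X : W →ₗ[F] V) : ℝ :=
  haveI := Classical.dec (a ∈ range X)
  if a ∈ range X then (1 / 2) ^ rk X else 0

lemma bd_mr (a : V) : Bd 1 (mr (W := W) a) := by
  classical
  have := Fintype.ofFinite W
  have h := bd_family (V := V) (W := W) (ι := Dual F V × W) (fun p => sgn (p.1 a))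
    (fun p => abs_sgn _) fun p => one p.2 p.1
  have h1 : mr (W := W) a = fun X : W →ₗ[F] V =>
      (∑ j : Dual F V × W, sgn (j.1 a) * chi X (one j.2 j.1)) / Fintype.card (Dual F V × W) := by
    funext X
    have h2 : (Fintype.card (Dual F V × W) : ℝ) = 2 ^ finrank F V * 2 ^ finrank F W := by
      rw [Fintype.card_prod, Nat.cast_mul, ← Nat.card_eq_fintype_card, ← Nat.card_eq_fintype_card,
        natCard_pow, natCard_pow, Subspace.dual_finrank_eq]
    rw [h2, Fintype.sum_prod_type]
    have h3 : ∀ ψ : Dual F V, ∑ w : W, sgn (ψ a) * chi X (one w ψ) =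
        2 ^ finrank F W * (if ψ ∘ₗ X = 0 then sgn (ψ a) else 0) := by
      intro ψ
      rw [← Finset.mul_sum]
      simp_rw [chi_one]
      have h4 := sum_sgn (E := W) (ψ ∘ₗ X)
      have h5 : (Fintype.card W : ℝ) = 2 ^ finrank F W := by
        rw [← Nat.card_eq_fintype_card, natCard_pow]
      rw [h5] at h4
      have h6 : ∑ w : W, sgn (ψ (X w)) = ∑ w : W, sgn ((ψ ∘ₗ X) w) := rfl
      rw [h6, h4]
      split_ifs <;> ring
    rw [Finset.sum_congr rfl fun u _ => h3 u, ← Finset.mul_sum]
    have h7 := sum_ker (V := Dual F W) (W := Dual F V) X.dualMap (Dual.eval F V a)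
    have h8 : ∀ ψ : Dual F V, (X.dualMap ψ = 0) = (ψ ∘ₗ X = 0) := fun ψ => rfl
    have h9 : ker X.dualMap ≤ ker (Dual.eval F V a) ↔ a ∈ range X := by
      rw [LinearMap.ker_dualMap_eq_dualAnnihilator_range]
      constructor
      · intro h
        have h10 : a ∈ (range X).dualAnnihilator.dualCoannihilator := by
          rw [Submodule.mem_dualCoannihilator]
          intro ψ hψ
          exact h hψ
        rwa [Subspace.dualAnnihilator_dualCoannihilator_eq] at h10
      · intro h ψ hψ
        exact (Submodule.mem_dualAnnihilator ψ).1 hψ a h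
    have h10 : (2 : ℝ) ^ finrank F (ker X.dualMap) = 2 ^ finrank F V * (1 / 2) ^ rk X := by
      have h11 : rk X + finrank F (ker X.dualMap) = finrank F V := by
        rw [LinearMap.ker_dualMap_eq_dualAnnihilator_range]
        exact Subspace.finrank_add_finrank_dualAnnihilator_eq (range X)
      rw [← h11, pow_add, mul_comm ((2 : ℝ) ^ rk X), mul_assoc, ← mul_pow]
      norm_num
    have h12 : ∑ ψ : Dual F V, (if ψ ∘ₗ X = 0 then sgn (ψ a) else 0) =
        if a ∈ range X then 2 ^ finrank F V * (1 / 2) ^ rk X else 0 := by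
      have h13 : ∑ ψ : Dual F V, (if X.dualMap ψ = 0 then sgn (Dual.eval F V a ψ) else 0) =
          ∑ ψ : Dual F V, (if ψ ∘ₗ X = 0 then sgn (ψ a) else 0) := rfl
      rw [← h13, h7]
      simp only [h9, h10]
    rw [h12]
    unfold mr
    split_ifs
    · field_simp
    · simp
  rw [h1]; exact h

end Vale.Agent.P325.H792
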